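import Vale.Agent.P286.H295.Smo

/-!
# Points as homomorphisms; the coproduct of a test object of `BG` with the point
-/

namespace Vale.Agent.P286.H295

open CategoryTheory Matrix Vale.Agent.P286.Gen TensorProduct

noncomputable section

section Points

variable {N : ℕ} {A B D : Type} [CommRing A] [Algebra ℂ A] [CommRing B] [Algebra ℂ B]
  [CommRing D] [Algebra ℂ D] {Γ : Gps N}

/-- The matrix of a point is a point. -/
theorem isPt_mx (x : Gr Γ A) : IsPt Γ (mx x) := mem_GrS.1 x.2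

/-- The universal point. -/
def ug (Γ : Gps N) : Gr Γ (Of Γ) := Gr.mk' (um Γ) isPt_um

theorem mx_ug : mx (ug Γ) = um Γ := rfl

/-- The homomorphism given by a point. -/
def hpt (x : Gr Γ B) : Of Γ →ₐ[ℂ] B := pth (mx x) (isPt_mx x)

theorem gm_hpt (x : Gr Γ B) : gm (hpt x) (ug Γ) = x := Gr.ext' (um_map_pth _ _)

theorem hom_ext_ug {f g : Of Γ →ₐ[ℂ] B} (h : gm f (ug Γ) = gm g (ug Γ)) : f = g :=
  pth_ext (congrArg mx h)

theorem hpt_gm (f : Of Γ →ₐ[ℂ] B) : hpt (gm f (ug Γ)) = f := hom_ext_ug (gm_hpt _)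

/-- The points of the group are the homomorphisms from the coordinate ring. -/
def ptEquiv : Gr Γ B ≃ (Of Γ →ₐ[ℂ] B) where
  toFun := hpt
  invFun f := gm f (ug Γ)
  left_inv := gm_hpt
  right_inv := hpt_gm

theorem hpt_gm_comp (f : A →ₐ[ℂ] B) (x : Gr Γ A) : hpt (gm f x) = f.comp (hpt x) := by
  apply hom_ext_ug
  rw [gm_hpt, ← gm_gm, gm_hpt]

end Points

section Mor

variable {N : ℕ} {Γ : Gps N}

/-- The point, as a test object. -/
def BPt (Γ : Gps N) : Gen.BGObj Γ where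
  A := { R := ℂ, smooth := inferInstance }

/-- A morphism of test objects. -/
def bm {X Y : Gen.BGObj Γ} (f : X.A.R →ₐ[ℂ] Y.A.R) (h : Gr Γ Y.A.R) : X ⟶ Y := (⟨f, h⟩ : Gen.BGHom X Y)

theorem bm_f {X Y : Gen.BGObj Γ} (f : X.A.R →ₐ[ℂ] Y.A.R) (h : Gr Γ Y.A.R) :
    Gen.BGHom.f (bm f h) = f := rfl

theorem bm_h {X Y : Gen.BGObj Γ} (f : X.A.R →ₐ[ℂ] Y.A.R) (h : Gr Γ Y.A.R) :
    Gen.BGHom.h (bm f h) = h := rfl

theorem bm_comp {X Y Z : Gen.BGObj Γ} (f : X.A.R →ₐ[ℂ] Y.A.R) (h : Gr Γ Y.A.R)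
    (f' : Y.A.R →ₐ[ℂ] Z.A.R) (h' : Gr Γ Z.A.R) :
    bm f h ≫ bm f' h' = bm (f'.comp f) (h' * gm f' h) := rfl

theorem bm_eta {X Y : Gen.BGObj Γ} (φ : X ⟶ Y) : bm (Gen.BGHom.f φ) (Gen.BGHom.h φ) = φ := rfl

theorem bm_id (X : Gen.BGObj Γ) : bm (AlgHom.id ℂ X.A.R) 1 = 𝟙 X := rfl

theorem bm_ext {X Y : Gen.BGObj Γ} {φ ψ : X ⟶ Y} (h1 : Gen.BGHom.f φ = Gen.BGHom.f ψ)
    (h2 : Gen.BGHom.h φ = Gen.BGHom.h ψ) : φ = ψ := Gen.BGHom.ext h1 h2

/-- The homomorphism from the ring of the coproduct. -/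
def dscR {A B : Type} [CommRing A] [Algebra ℂ A] [CommRing B] [Algebra ℂ B]
    (f : A →ₐ[ℂ] B) (x : Gr Γ B) : A ⊗[ℂ] Of Γ →ₐ[ℂ] B :=
  Algebra.TensorProduct.lift f (hpt x) (fun _ _ => Commute.all _ _)

theorem dscR_L {A B : Type} [CommRing A] [Algebra ℂ A] [CommRing B] [Algebra ℂ B]
    (f : A →ₐ[ℂ] B) (x : Gr Γ B) : (dscR f x).comp (tL A (Of Γ)) = f :=
  Algebra.TensorProduct.lift_comp_includeLeft _ _ (fun _ _ => Commute.all _ _)

theorem dscR_R {A B : Type} [CommRing A] [Algebra ℂ A] [CommRing B] [Algebra ℂ B]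
    (f : A →ₐ[ℂ] B) (x : Gr Γ B) : (dscR f x).comp (tR A (Of Γ)) = hpt x :=
  Algebra.TensorProduct.lift_comp_includeRight _ _ (fun _ _ => Commute.all _ _)

theorem dscR_ext {A B : Type} [CommRing A] [Algebra ℂ A] [CommRing B] [Algebra ℂ B]
    {u v : A ⊗[ℂ] Of Γ →ₐ[ℂ] B} (h1 : u.comp (tL A (Of Γ)) = v.comp (tL A (Of Γ)))
    (h2 : gm u (gm (tR A (Of Γ)) (ug Γ)) = gm v (gm (tR A (Of Γ)) (ug Γ))) : u = v := by
  apply Algebra.TensorProduct.ext h1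
  apply hom_ext_ug
  rw [gm_gm, gm_gm] at h2
  exact h2

end Mor

section Coprod

variable {N : ℕ} {Γ : Gps N} [hs : Algebra.Smooth ℂ (Of Γ)]

/-- The coproduct of a test object with the point. -/
def cop (X : Gen.BGObj Γ) : Gen.BGObj Γ where
  A := { R := X.A.R ⊗[ℂ] Of Γ, smooth := smooth_tens X.A.R (Of Γ) }

/-- The inclusion of the functions on `X`. -/
def cL (X : Gen.BGObj Γ) : X.A.R →ₐ[ℂ] (cop X).A.R := tL X.A.R (Of Γ)

/-- The inclusion of the functions on the group. -/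
def cR (X : Gen.BGObj Γ) : Of Γ →ₐ[ℂ] (cop X).A.R := tR X.A.R (Of Γ)

/-- The inclusion of `X` in the coproduct. -/
def inl (X : Gen.BGObj Γ) : X ⟶ cop X := bm (Y := cop X) (cL X) 1

/-- The coordinate of the coproduct: the position of the point relative to `X`. -/
def cg (X : Gen.BGObj Γ) : Gr Γ (cop X).A.R := gm (cR X) (ug Γ)

/-- The inclusion of the point in the coproduct. -/
def inr (X : Gen.BGObj Γ) : BPt Γ ⟶ cop X :=
  bm (X := BPt Γ) (Y := cop X) (Algebra.ofId ℂ (cop X).A.R) (cg X)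

/-- The morphism from the coproduct given by a morphism from `X` and an element of the group (the
morphism from the point). -/
def dsc {X B : Gen.BGObj Γ} (φ : X ⟶ B) (k : Gr Γ B.A.R) : cop X ⟶ B :=
  bm (X := cop X) (dscR (Gen.BGHom.f φ) ((Gen.BGHom.h φ)⁻¹ * k)) (Gen.BGHom.h φ)

theorem inl_dsc {X B : Gen.BGObj Γ} (φ : X ⟶ B) (k : Gr Γ B.A.R) : inl X ≫ dsc φ k = φ := by
  refine bm_ext ?_ ?_
  · exact dscR_L _ _
  · exact (congrArg (Gen.BGHom.h φ * ·) (gm_one _)).trans (mul_one _)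

theorem gm_dsc {X B : Gen.BGObj Γ} (φ : X ⟶ B) (k : Gr Γ B.A.R) :
    gm (Gen.BGHom.f (dsc φ k)) (cg X) = (Gen.BGHom.h φ)⁻¹ * k := by
  change gm (dscR (Gen.BGHom.f φ) ((Gen.BGHom.h φ)⁻¹ * k)) (gm (tR X.A.R (Of Γ)) (ug Γ)) = _
  rw [gm_gm, dscR_R, gm_hpt]

theorem inr_dsc {X B : Gen.BGObj Γ} (φ : X ⟶ B) (k : Gr Γ B.A.R) :
    inr X ≫ dsc φ k = bm (X := BPt Γ) (Algebra.ofId ℂ B.A.R) k := by
  refine bm_ext ?_ ?_
  · apply AlgHom.ext
    intro c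
    exact (Gen.BGHom.f (dsc φ k)).commutes c
  · refine (congrArg (Gen.BGHom.h φ * ·) (gm_dsc φ k)).trans ?_
    exact mul_inv_cancel_left _ _

/-- The universal property of the coproduct. -/
theorem cop_ext {X B : Gen.BGObj Γ} {u v : cop X ⟶ B} (h1 : inl X ≫ u = inl X ≫ v)
    (h2 : inr X ≫ u = inr X ≫ v) : u = v := by
  have hh : Gen.BGHom.h u = Gen.BGHom.h v := by
    have h3 := congrArg Gen.BGHom.h h1
    have h4 : ∀ w : cop X ⟶ B, Gen.BGHom.h (inl X ≫ w) = Gen.BGHom.h w := fun w =>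
      (congrArg (Gen.BGHom.h w * ·) (gm_one _)).trans (mul_one _)
    rwa [h4, h4] at h3
  refine bm_ext ?_ hh
  refine dscR_ext (congrArg Gen.BGHom.f h1) ?_
  have h3 : Gen.BGHom.h u * gm (Gen.BGHom.f u) (cg X) = Gen.BGHom.h v * gm (Gen.BGHom.f v) (cg X) :=
    congrArg Gen.BGHom.h h2
  rw [hh] at h3
  exact mul_left_cancel h3

/-- Functoriality of the coproduct with the point. -/
def copM {X Y : Gen.BGObj Γ} (φ : X ⟶ Y) : cop X ⟶ cop Y := dsc (φ ≫ inl Y) (cg Y)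

theorem inl_copM {X Y : Gen.BGObj Γ} (φ : X ⟶ Y) : inl X ≫ copM φ = φ ≫ inl Y := inl_dsc _ _

theorem inr_copM {X Y : Gen.BGObj Γ} (φ : X ⟶ Y) : inr X ≫ copM φ = inr Y := inr_dsc _ _

theorem copM_id (X : Gen.BGObj Γ) : copM (𝟙 X) = 𝟙 (cop X) :=
  cop_ext (by rw [inl_copM, Category.id_comp, Category.comp_id])
    (by rw [inr_copM, Category.comp_id])

theorem copM_comp {X Y Z : Gen.BGObj Γ} (φ : X ⟶ Y) (ψ : Y ⟶ Z) :
    copM (φ ≫ ψ) = copM φ ≫ copM ψ :=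
  cop_ext (by rw [inl_copM, Category.assoc, ← Category.assoc (inl X), inl_copM, Category.assoc,
      inl_copM])
    (by rw [inr_copM, ← Category.assoc, inr_copM, inr_copM])

/-- The coproduct with the point, as a functor. -/
def copF (Γ : Gps N) [Algebra.Smooth ℂ (Of Γ)] : Gen.BGObj Γ ⥤ Gen.BGObj Γ where
  obj := cop
  map := copM
  map_id := copM_id
  map_comp := copM_comp

/-- The h-part and the coordinate of `copM`. -/
theorem copM_h {X Y : Gen.BGObj Γ} (φ : X ⟶ Y) :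
    Gen.BGHom.h (copM φ) = gm (cL Y) (Gen.BGHom.h φ) := by
  change (1 : Gr Γ (cop Y).A.R) * gm (cL Y) (Gen.BGHom.h φ) = _
  exact one_mul _

theorem gm_copM {X Y : Gen.BGObj Γ} (φ : X ⟶ Y) :
    gm (Gen.BGHom.f (copM φ)) (cg X) = (gm (cL Y) (Gen.BGHom.h φ))⁻¹ * cg Y := by
  refine (gm_dsc (φ ≫ inl Y) (cg Y)).trans ?_
  have h : Gen.BGHom.h (φ ≫ inl Y) = gm (cL Y) (Gen.BGHom.h φ) := by
    change (1 : Gr Γ (cop Y).A.R) * gm (cL Y) (Gen.BGHom.h φ) = _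
    exact one_mul _
  rw [h]

/-- The retraction of `inl` given by a morphism from the point. -/
theorem inl_fold {X : Gen.BGObj Γ} (k : Gr Γ X.A.R) : inl X ≫ dsc (𝟙 X) k = 𝟙 X := inl_dsc _ _

theorem inr_fold {X : Gen.BGObj Γ} (k : Gr Γ X.A.R) :
    inr X ≫ dsc (𝟙 X) k = bm (X := BPt Γ) (Algebra.ofId ℂ X.A.R) k := inr_dsc _ _

/-- The exchange of the two points. -/
def swp (X : Gen.BGObj Γ) : cop (cop X) ⟶ cop (cop X) :=
  dsc (dsc (inl X ≫ inl (cop X)) (cg (cop X))) (gm (cL (cop X)) (cg X))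

end Coprod

end

end Vale.Agent.P286.H295
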