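import Vale.Agent.P286.H295.SpG
import Vale.Agent.P286.Gen.Kil

/-!
# The Lie algebra of the symplectic group
-/

namespace Vale.Agent.P286.H295

open Matrix Vale.Agent.P286.Gen

noncomputable section

attribute [local instance 100] LieRing.ofAssociativeRing LieAlgebra.ofAssociativeAlgebra

variable {N : ℕ} {Γ : Gps N}

/-- The standard representation. -/
local instance stdRing : LieRingModule (lieAlg Γ) (Fin N → ℂ) where
  bracket X v := X.1 *ᵥ v
  add_lie X Y v := Matrix.add_mulVec _ _ _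
  lie_add X v w := Matrix.mulVec_add _ _ _
  leibniz_lie X Y v := by
    change X.1 *ᵥ (Y.1 *ᵥ v) = (X.1 * Y.1 - Y.1 * X.1) *ᵥ v + Y.1 *ᵥ (X.1 *ᵥ v)
    rw [Matrix.mulVec_mulVec, Matrix.mulVec_mulVec, Matrix.sub_mulVec, sub_add_cancel]

local instance stdMod : LieModule ℂ (lieAlg Γ) (Fin N → ℂ) where
  smul_lie c X v := Matrix.smul_mulVec c X.1 v
  lie_smul c X v := Matrix.mulVec_smul X.1 c v

theorem std_apply (X : lieAlg Γ) (v : Fin N → ℂ) : ⁅X, v⁆ = X.1 *ᵥ v := rfl

local instance stdFaithful : LieModule.IsFaithful ℂ (lieAlg Γ) (Fin N → ℂ) where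
  injective_toEnd := by
    intro X Y h
    apply Subtype.ext
    apply Matrix.ext_of_mulVec_single
    intro i
    exact congrArg (fun f => f (Pi.single i 1)) h

theorem trace_toEnd (X : lieAlg Γ) :
    LinearMap.trace ℂ _ (LieModule.toEnd ℂ (lieAlg Γ) (Fin N → ℂ) X) = X.1.trace := by
  have h : LieModule.toEnd ℂ (lieAlg Γ) (Fin N → ℂ) X = Matrix.toLin' X.1 := rfl
  rw [h, Matrix.trace_toLin'_eq]

/-- An irreducible Lie algebra of matrices of trace zero has a nondegenerate Killing form. -/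
theorem kilDet_of_irr (hN : 0 < N) (htr : ∀ X ∈ lieAlg Γ, X.trace = 0)
    (hirr : ∀ U : Submodule ℂ (Fin N → ℂ), (∀ X ∈ lieAlg Γ, ∀ v ∈ U, X *ᵥ v ∈ U) →
      U ≠ ⊥ → U = ⊤) : KilDet Γ := by
  have : Nonempty (Fin N) := ⟨⟨0, hN⟩⟩
  have : LieModule.IsIrreducible ℂ (lieAlg Γ) (Fin N → ℂ) := by
    apply LieModule.IsIrreducible.mk
    intro U hU
    have h1 := hirr (U : Submodule ℂ (Fin N → ℂ))
      (fun X hX v hv => U.lie_mem (x := ⟨X, hX⟩) hv)
      (fun h => hU ((LieSubmodule.toSubmodule_eq_bot U).1 h))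
    exact (LieSubmodule.toSubmodule_eq_top U).1 h1
  have h2 : LieAlgebra.HasTrivialRadical ℂ (lieAlg Γ) :=
    LieAlgebra.hasTrivialRadical_of_isIrreducible_of_isFaithful ℂ (lieAlg Γ) (Fin N → ℂ)
      (fun X => by rw [trace_toEnd]; exact htr X.1 X.2)
  exact kilDet_of_isKilling

variable {F : Mt N ℂ}

theorem IsForm.trace_eq_zero (hΓ : IsForm Γ F) (hF : IsUnit F.det) {X : Mt N ℂ}
    (hX : X ∈ lieAlg Γ) : X.trace = 0 := by
  have h := (hΓ.mem_lieAlg hF X).1 hX
  have h1 : X.transpose = - (F * X * F⁻¹) := by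
    have h2 := congrArg (fun y => y * F⁻¹) (eq_neg_of_add_eq_zero_left h)
    simp only [Matrix.mul_assoc, Matrix.mul_nonsing_inv F hF, mul_one] at h2
    rw [h2, Matrix.neg_mul]
  have h3 := congrArg Matrix.trace h1
  rw [Matrix.trace_transpose, Matrix.trace_neg, Matrix.trace_mul_comm, ← Matrix.mul_assoc,
    Matrix.nonsing_inv_mul F hF, one_mul] at h3
  linear_combination (1 / 2 : ℂ) * h3

theorem yv_mem (hF' : F.transpose = -F) (hΓ : IsForm Γ F) (hF : IsUnit F.det) (w : Fin N → ℂ) :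
    yv F w ∈ lieAlg Γ := by
  rw [hΓ.mem_lieAlg hF]
  apply om_ext
  intro x y
  have h1 : om ((yv F w).transpose * F + F * yv F w) x y =
      om F (yv F w *ᵥ x) y + om F x (yv F w *ᵥ y) := by
    unfold om
    rw [Matrix.add_mulVec, dotProduct_add, ← Matrix.mulVec_mulVec, ← Matrix.mulVec_mulVec,
      Matrix.mulVec_transpose]
    congr 1
    rw [dotProduct_comm, ← dotProduct_mulVec, dotProduct_comm]
  rw [h1, yv_mulVec, yv_mulVec, om_smul_left, om_smul_right, om_swap hF' x w]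
  have h2 : om (0 : Mt N ℂ) x y = 0 := by
    unfold om
    rw [Matrix.zero_mulVec, dotProduct_zero]
  rw [h2]
  ring

/-- The symplectic Lie algebras act irreducibly. -/
theorem irr_form (hF' : F.transpose = -F) (hΓ : IsForm Γ F) (hF : IsUnit F.det)
    (U : Submodule ℂ (Fin N → ℂ)) (hU : ∀ X ∈ lieAlg Γ, ∀ v ∈ U, X *ᵥ v ∈ U) (h0 : U ≠ ⊥) :
    U = ⊤ := by
  obtain ⟨v, hv, hv0⟩ := Submodule.exists_mem_ne_zero_of_ne_bot h0
  -- a vector not orthogonal to `v`
  have h1 : ∃ w, om F w v ≠ 0 := by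
    by_contra hcon
    push Not at hcon
    apply hv0
    have h2 : F *ᵥ v = 0 := by
      ext i
      have := hcon (Pi.single i 1)
      rwa [om, single_one_dotProduct] at this
    have h3 := congrArg (fun x => F⁻¹ *ᵥ x) h2
    simp only [Matrix.mulVec_mulVec, Matrix.nonsing_inv_mul F hF, Matrix.one_mulVec,
      Matrix.mulVec_zero] at h3
    exact h3
  have key : ∀ w, om F w v ≠ 0 → w ∈ U := by
    intro w hw
    have h2 := hU _ (yv_mem hF' hΓ hF w) v hv
    rw [yv_mulVec] at h2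
    exact (U.smul_mem_iff hw).1 h2
  obtain ⟨w₀, hw₀⟩ := h1
  rw [eq_top_iff]
  intro w _
  by_cases hw : om F w v = 0
  · have h2 : w + w₀ ∈ U := key _ (by rw [om_add_left, hw, zero_add]; exact hw₀)
    have h3 := U.sub_mem h2 (key _ hw₀)
    rwa [add_sub_cancel_right] at h3
  · exact key w hw

theorem isUnit_det_fm (hN : Even N) : IsUnit (Sp.fm N ℂ).det := by
  have h := congrArg Matrix.det (Sp.fm_sq (A := ℂ) hN)
  rw [Matrix.det_mul] at h
  rw [isUnit_iff_ne_zero]
  intro h0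
  rw [h0, mul_zero, Matrix.det_neg, Matrix.det_one, mul_one] at h
  exact pow_ne_zero _ (by norm_num) h.symm

/-- **The Killing form of the symplectic Lie algebra is nondegenerate.** -/
theorem kilDet_GSp (hN : Even N) (h0 : 0 < N) : KilDet (GSp N) :=
  kilDet_of_irr h0 (fun _ hX => (isForm_GSp N).trace_eq_zero (isUnit_det_fm hN) hX)
    (fun U hU h => irr_form (Sp.fm_tr hN) (isForm_GSp N) (isUnit_det_fm hN) U hU h)

/-- The Lie algebra of the symplectic group. -/
theorem mem_lieAlg_GSp (hN : Even N) (Y : Mt N ℂ) :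
    Y ∈ lieAlg (GSp N) ↔ Y.transpose * Sp.fm N ℂ + Sp.fm N ℂ * Y = 0 :=
  (isForm_GSp N).mem_lieAlg (isUnit_det_fm hN) Y

/-- The Lie algebra of the symplectic group is closed under the conjugate transpose. -/
theorem conjTranspose_mem_GSp (hN : Even N) {Y : Mt N ℂ} (hY : Y ∈ lieAlg (GSp N)) :
    Y.conjTranspose ∈ lieAlg (GSp N) := by
  rw [mem_lieAlg_GSp hN] at hY ⊢
  have hr : (Sp.fm N ℂ).conjTranspose = - Sp.fm N ℂ := by
    rw [← Sp.fm_tr hN]
    ext i j
    simp only [Matrix.conjTranspose_apply, Matrix.transpose_apply, Sp.fm, Matrix.of_apply]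
    split_ifs <;> simp
  -- conjugate by the form
  have h1 : Y.transpose = Sp.fm N ℂ * Y * Sp.fm N ℂ := by
    have h2 := congrArg (fun y => y * Sp.fm N ℂ) (eq_neg_of_add_eq_zero_left hY)
    simp only [Matrix.mul_assoc, Sp.fm_sq hN, Matrix.mul_neg, mul_one] at h2
    rw [Matrix.neg_mul] at h2
    exact neg_injective h2
  have h3 := congrArg Matrix.conjTranspose h1
  rw [Matrix.conjTranspose_mul, Matrix.conjTranspose_mul, hr] at h3
  simp only [Matrix.neg_mul, Matrix.mul_neg, neg_neg, ← Matrix.mul_assoc] at h3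
  have h4 : Y.conjTranspose.transpose = Sp.fm N ℂ * Y.conjTranspose * Sp.fm N ℂ := h3
  rw [h4, Matrix.mul_assoc, Sp.fm_sq hN, Matrix.mul_neg, mul_one, neg_add_cancel]

end

end Vale.Agent.P286.H295
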