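import Vale.Agent.P286.H295.Eic
import Vale.Agent.P286.H295.SpL
import Vale.Agent.P286.So.Grp

/-!
# The special orthogonal groups: irreducibility and Lie algebra
-/

namespace Vale.Agent.P286.H295

open Matrix Vale.Agent.P286.Gen Vale.Agent.P286.H987

noncomputable section

variable {N : ℕ}

theorem dot_single (x : Fin N → ℂ) (j : Fin N) : x ⬝ᵥ (Pi.single j 1) = x j := by
  rw [dotProduct_comm, single_one_dotProduct]

theorem single_dot (x : Fin N → ℂ) (j : Fin N) : (Pi.single j 1 : Fin N → ℂ) ⬝ᵥ x = x j :=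
  single_one_dotProduct _ _

/-- The vectors `e_j + c e_k`. -/
def ev2 (j k : Fin N) (c : ℂ) : Fin N → ℂ := Pi.single j 1 + c • Pi.single k 1

theorem ev2_dot (j k : Fin N) (c : ℂ) (x : Fin N → ℂ) : ev2 j k c ⬝ᵥ x = x j + c * x k := by
  unfold ev2
  rw [add_dotProduct, smul_dotProduct, single_dot, single_dot, smul_eq_mul]

theorem ev2_apply_left {j k : Fin N} (h : j ≠ k) (c : ℂ) : ev2 j k c j = 1 := by
  simp [ev2, h]

theorem ev2_apply_right {j k : Fin N} (h : j ≠ k) (c : ℂ) : ev2 j k c k = c := by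
  simp [ev2, Ne.symm h]

theorem ev2_mem {S : Finset (Fin N)} {j k : Fin N} (hj : j ∈ S) (hk : k ∈ S) (c : ℂ) :
    ev2 j k c ∈ Ws S := (Ws S).add_mem (single_mem_Ws hj) ((Ws S).smul_mem c (single_mem_Ws hk))

theorem ev2_self {j k : Fin N} (h : j ≠ k) {c : ℂ} (hc : c * c = -1) :
    ev2 j k c ⬝ᵥ ev2 j k c = 0 := by
  rw [ev2_dot, ev2_apply_left h, ev2_apply_right h, hc]
  ring

/-- For two isotropic vectors in a space of dimension at least three there is an anisotropic vector
orthogonal to both. -/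
theorem exists_aniso {S : Finset (Fin N)} (hS : 2 < S.card) {u b : Fin N → ℂ}
    (hu : u ∈ Ws S) (hb : b ∈ Ws S) (hu0 : u ⬝ᵥ u = 0) (hb0 : b ⬝ᵥ b = 0) (hub : u ⬝ᵥ b ≠ 0) :
    ∃ z ∈ Ws S, z ⬝ᵥ u = 0 ∧ z ⬝ᵥ b = 0 ∧ z ⬝ᵥ z ≠ 0 := by
  set c := u ⬝ᵥ b with hc
  have hbu : b ⬝ᵥ u = c := dotProduct_comm _ _
  by_contra hcon
  push Not at hcon
  have key : ∀ x ∈ Ws S, c * (x ⬝ᵥ x) = 2 * ((b ⬝ᵥ x) * (u ⬝ᵥ x)) := by
    intro x hx
    have h1 := hcon (x - (c⁻¹ * (b ⬝ᵥ x)) • u - (c⁻¹ * (u ⬝ᵥ x)) • b)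
      ((Ws S).sub_mem ((Ws S).sub_mem hx ((Ws S).smul_mem _ hu)) ((Ws S).smul_mem _ hb))
      (by
        simp only [sub_dotProduct, smul_dotProduct, smul_eq_mul, hu0, hbu, dotProduct_comm x u]
        field_simp
        ring)
      (by
        simp only [sub_dotProduct, smul_dotProduct, smul_eq_mul, hb0, ← hc, dotProduct_comm x b]
        field_simp
        ring)
    simp only [sub_dotProduct, dotProduct_sub, smul_dotProduct, dotProduct_smul, smul_eq_mul, hu0,
      hb0, hbu, ← hc, dotProduct_comm x b, dotProduct_comm x u] at h1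
    have hi : c * c⁻¹ = 1 := mul_inv_cancel₀ hub
    linear_combination c * h1 - 2 * (b ⬝ᵥ x) * (u ⬝ᵥ x) * (c * c⁻¹ - 1) * hi
  obtain ⟨j, k, l, hj, hk, hl, hjk, hjl, hkl⟩ := Finset.two_lt_card_iff.1 hS
  have d : ∀ i ∈ S, c = 2 * (b i * u i) := by
    intro i hi
    have h1 := key _ (single_mem_Ws hi)
    rw [single_dot, Pi.single_eq_same, dot_single, dot_single, mul_one] at h1
    exact h1
  have e : ∀ i ∈ S, ∀ i' ∈ S, i ≠ i' → b i * u i' + b i' * u i = 0 := by
    intro i hi i' hi' hne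
    have h1 := key _ ((Ws S).add_mem (single_mem_Ws hi) (single_mem_Ws hi'))
    simp only [add_dotProduct, dotProduct_add, dot_single, Pi.single_eq_same,
      Pi.single_eq_of_ne hne, Pi.single_eq_of_ne (Ne.symm hne)] at h1
    have h2 := d i hi
    have h3 := d i' hi'
    linear_combination (-(1 / 2 : ℂ)) * h1 + (1 / 2 : ℂ) * h2 + (1 / 2 : ℂ) * h3
  have hne : ∀ i ∈ S, u i ≠ 0 := by
    intro i hi h0
    have h1 := d i hi
    rw [h0, mul_zero, mul_zero] at h1
    exact hub h1
  have f : ∀ i ∈ S, ∀ i' ∈ S, i ≠ i' → u i ^ 2 = - u i' ^ 2 := by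
    intro i hi i' hi' hii
    have h1 := e i hi i' hi' hii
    have h2 := d i hi
    have h3 := d i' hi'
    have h4 : c * (u i ^ 2 + u i' ^ 2) = 0 := by
      linear_combination (u i') ^ 2 * h2 + (u i) ^ 2 * h3 + 2 * u i * u i' * h1
    have h5 := (mul_eq_zero.1 h4).resolve_left hub
    linear_combination h5
  have h1 := f j hj k hk hjk
  have h2 := f k hk l hl hkl
  have h3 := f j hj l hl hjl
  have h4 : u j ^ 2 = 0 := by linear_combination (1 / 2 : ℂ) * h1 - (1 / 2 : ℂ) * h2 + (1 / 2 : ℂ) * h3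
  exact hne j hj (pow_eq_zero_iff (two_ne_zero)|>.1 h4)

/-- There is an isotropic vector which is not orthogonal to a given one. -/
theorem exists_iso {S : Finset (Fin N)} (hS : 2 < S.card) {u : Fin N → ℂ} (hu : u ∈ Ws S)
    (hu0 : u ≠ 0) : ∃ b ∈ Ws S, b ⬝ᵥ b = 0 ∧ b ⬝ᵥ u ≠ 0 := by
  obtain ⟨j, hj⟩ := Function.ne_iff.1 hu0
  have hjS : j ∈ S := by
    by_contra h
    exact hj (hu j h)
  obtain ⟨k, hk, hkj⟩ : ∃ k ∈ S, k ≠ j := Finset.exists_mem_ne (by omega) j
  have hI : Complex.I * Complex.I = -1 := Complex.I_mul_I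
  have hI' : (-Complex.I) * (-Complex.I) = -1 := by rw [neg_mul_neg, hI]
  by_cases h : u j + Complex.I * u k = 0
  · refine ⟨ev2 j k (-Complex.I), ev2_mem hjS hk _, ev2_self (Ne.symm hkj) hI', ?_⟩
    rw [ev2_dot]
    intro h'
    apply hj
    change u j = 0
    linear_combination (1 / 2 : ℂ) * h + (1 / 2 : ℂ) * h'
  · exact ⟨ev2 j k Complex.I, ev2_mem hjS hk _, ev2_self (Ne.symm hkj) hI, by rw [ev2_dot]; exact h⟩

/-- Transitivity on the nonzero isotropic vectors. -/
theorem Mv.all {S : Finset (Fin N)} (hS : 2 < S.card) {u v : Fin N → ℂ}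
    (hu : u ∈ Ws S) (hv : v ∈ Ws S) (hu0 : u ⬝ᵥ u = 0) (hv0 : v ⬝ᵥ v = 0) (hu1 : u ≠ 0)
    (hv1 : v ≠ 0) : Mv (Ws S) u v := by
  have step : ∀ x ∈ Ws S, ∀ y ∈ Ws S, x ⬝ᵥ x = 0 → y ⬝ᵥ y = 0 → x ⬝ᵥ y ≠ 0 →
      Mv (Ws S) x y := by
    intro x hx y hy hx0 hy0 hxy
    obtain ⟨z, hz, h1, h2, h3⟩ := exists_aniso hS hx hy hx0 hy0 hxy
    exact Mv.of_ne hx hy hz hx0 hy0 hxy h1 h2 h3
  by_cases h : u ⬝ᵥ v = 0
  · obtain ⟨b, hb, hb0, hbu⟩ := exists_iso hS hu hu1
    obtain ⟨b', hb', hb0', hbv⟩ := exists_iso hS hv hv1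
    have hub : u ⬝ᵥ b ≠ 0 := by rwa [dotProduct_comm]
    by_cases h1 : b ⬝ᵥ v = 0
    · by_cases h2 : b' ⬝ᵥ u = 0
      · by_cases h3 : b ⬝ᵥ b' = 0
        · have h4 : (b + b') ⬝ᵥ (b + b') = 0 := by
            simp only [add_dotProduct, dotProduct_add, hb0, hb0', dotProduct_comm b' b, h3]
            ring
          have h5 : u ⬝ᵥ (b + b') ≠ 0 := by
            rw [dotProduct_comm, add_dotProduct, h2, add_zero]
            exact hbu
          have h6 : (b + b') ⬝ᵥ v ≠ 0 := by
            rw [add_dotProduct, h1, zero_add]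
            exact hbv
          exact (step u hu _ ((Ws S).add_mem hb hb') hu0 h4 h5).trans
            (step _ ((Ws S).add_mem hb hb') v hv h4 hv0 h6)
        · exact ((step u hu b hb hu0 hb0 hub).trans (step b hb b' hb' hb0 hb0' h3)).trans
            (step b' hb' v hv hb0' hv0 hbv)
      · have h2' : u ⬝ᵥ b' ≠ 0 := by rwa [dotProduct_comm]
        exact (step u hu b' hb' hu0 hb0' h2').trans (step b' hb' v hv hb0' hv0 hbv)
    · exact (step u hu b hb hu0 hb0 hub).trans (step b hb v hv hb0 hv0 h1)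
  · exact step u hu v hv hu0 hv0 h

theorem joined_SO_aux {Γ : Gps N} (hΓ : IsSO Γ) (k : ℕ) : ∀ S : Finset (Fin N), S.card = k →
    Odd k → ∀ γ ∈ Γ, (∀ j, j ∉ S → γ.1 *ᵥ (Pi.single j 1) = Pi.single j 1) → Joined Γ γ := by
  induction k using Nat.strong_induction_on with
  | _ k ih =>
    intro S hS hodd γ hγ hfix
    have hO : IsO γ.1 := (hΓ γ).1 hγ
    -- `γ` preserves `W`
    have hpres : ∀ x ∈ Ws S, γ.1 *ᵥ x ∈ Ws S := by
      intro x hx i hi
      have h1 := hO (Pi.single i 1) x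
      rw [hfix _ hi, single_dot, single_dot, hx i hi] at h1
      exact h1
    by_cases hk : k = 1
    · subst hk
      obtain ⟨j, hj⟩ := Finset.card_eq_one.1 hS
      subst hj
      have h1 : γ.1 = Matrix.diagonal (fun i => if i = j then γ.1 j j else 1) := by
        apply Matrix.ext_of_mulVec_single
        intro i
        by_cases hi : i = j
        · subst hi
          ext l
          rw [Matrix.mulVec_single_one, Matrix.mulVec_single_one, Matrix.col_apply,
            Matrix.col_apply, Matrix.diagonal_apply]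
          by_cases hl : l = i
          · subst hl
            simp
          · rw [if_neg hl]
            have h2 := hpres _ (single_mem_Ws (Finset.mem_singleton_self i)) l
              (fun h => hl (Finset.mem_singleton.1 h))
            rwa [Matrix.mulVec_single_one, Matrix.col_apply] at h2
        · rw [hfix i (fun h => hi (Finset.mem_singleton.1 h))]
          ext l
          rw [Matrix.mulVec_single_one, Matrix.col_apply, Matrix.diagonal_apply]
          by_cases hl : l = i
          · subst hl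
            simp [hi]
          · rw [if_neg hl, Pi.single_eq_of_ne hl]
      have h2 := γ.2
      rw [h1, Matrix.det_diagonal, Finset.prod_ite_eq' Finset.univ j, if_pos (Finset.mem_univ j)]
        at h2
      have h3 : γ = 1 := by
        apply Subtype.ext
        rw [h1, h2]
        have h4 : (fun i : Fin N => if i = j then (1 : ℂ) else 1) = fun _ => 1 := by
          ext i
          split_ifs <;> rfl
        rw [h4]
        exact Matrix.diagonal_one
      rw [h3]
      exact Joined.one _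
    · have hS2 : 2 < S.card := by
        rw [hS]
        obtain ⟨m, hm⟩ := hodd
        omega
      obtain ⟨j, l, -, hj, hl, -, hjl, -, -⟩ := Finset.two_lt_card_iff.1 hS2
      have hI : Complex.I * Complex.I = -1 := Complex.I_mul_I
      have hI' : (-Complex.I) * (-Complex.I) = -1 := by rw [neg_mul_neg, hI]
      -- the standard pair
      set u := ev2 j l Complex.I with hud
      set v := (1 / 2 : ℂ) • ev2 j l (-Complex.I) with hvd
      have hu : u ∈ Ws S := ev2_mem hj hl _
      have hv : v ∈ Ws S := (Ws S).smul_mem _ (ev2_mem hj hl _)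
      have hu0 : u ⬝ᵥ u = 0 := ev2_self hjl hI
      have hv0 : v ⬝ᵥ v = 0 := by
        rw [hvd, smul_dotProduct, dotProduct_smul, ev2_self hjl hI', smul_zero, smul_zero]
      have huv : u ⬝ᵥ v = 1 := by
        rw [hvd, dotProduct_smul, hud, ev2_dot, ev2_apply_left hjl, ev2_apply_right hjl,
          smul_eq_mul]
        linear_combination (-(1 / 2 : ℂ)) * hI
      have hu1 : u ≠ 0 := by
        intro h
        rw [h, zero_dotProduct] at huv
        exact zero_ne_one huv
      have hγu1 : γ.1 *ᵥ u ≠ 0 := by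
        intro h
        have h1 := hO u v
        rw [h, zero_dotProduct, huv] at h1
        exact zero_ne_one h1
      obtain ⟨τ₁, hτ₁, h1⟩ := Mv.all hS2 hu (hpres u hu) hu0 (by rw [hO, hu0]) hu1 hγu1
      have hτ₁Γ := (joined_EP hΓ hτ₁).2
      have hO₁ : IsO τ₁.1 := (hΓ τ₁).1 hτ₁Γ
      have h2 : (γ.1 *ᵥ u) ⬝ᵥ (τ₁.1 *ᵥ v) = 1 := by rw [← h1, hO₁, huv]
      obtain ⟨τ₂, hτ₂, h3, h4⟩ := exists_ec (hpres u hu) ((EP_pres hτ₁).1 v hv) (hpres v hv)
        (by rw [hO, hu0]) (by rw [hO₁, hv0]) (by rw [hO, hv0]) (by rw [h2]; exact one_ne_zero)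
        (by rw [h2, hO, huv])
      have hτ : τ₂ * τ₁ ∈ EP (Ws S) := (EP (Ws S)).mul_mem hτ₂ hτ₁
      have hτu : (τ₂ * τ₁).1 *ᵥ u = γ.1 *ᵥ u := mul_mulVec_eq h1 h3
      have hτv : (τ₂ * τ₁).1 *ᵥ v = γ.1 *ᵥ v := mul_mulVec_eq rfl h4
      set τ := τ₂ * τ₁ with hτd
      obtain ⟨hJ, hτΓ⟩ := joined_EP hΓ hτ
      have hδ : τ⁻¹ * γ ∈ Γ := Γ.mul_mem (Γ.inv_mem hτΓ) hγ
      have hδu : (τ⁻¹ * γ).1 *ᵥ u = u := mul_mulVec_eq rfl (inv_mulVec_eq hτu)
      have hδv : (τ⁻¹ * γ).1 *ᵥ v = v := mul_mulVec_eq rfl (inv_mulVec_eq hτv)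
      have ej : (Pi.single j 1 : Fin N → ℂ) = (1 / 2 : ℂ) • u + v := by
        rw [hvd, hud]
        unfold ev2
        ext i
        simp only [Pi.add_apply, Pi.smul_apply, smul_eq_mul]
        ring
      have el : (Pi.single l 1 : Fin N → ℂ) = (-Complex.I / 2) • u + Complex.I • v := by
        rw [hvd, hud]
        unfold ev2
        ext i
        simp only [Pi.add_apply, Pi.smul_apply, smul_eq_mul]
        linear_combination ((Pi.single l 1 : Fin N → ℂ) i) * hI
      have hcard : ((S.erase j).erase l).card = k - 2 := by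
        rw [Finset.card_erase_of_mem (Finset.mem_erase.2 ⟨Ne.symm hjl, hl⟩),
          Finset.card_erase_of_mem hj, hS]
        omega
      have hδJ : Joined Γ (τ⁻¹ * γ) := by
        refine ih (k - 2) (by omega) _ hcard ?_ _ hδ ?_
        · obtain ⟨m, hm⟩ := hodd
          exact ⟨m - 1, by omega⟩
        · intro i hi
          by_cases h5 : i = j
          · rw [h5, ej, Matrix.mulVec_add, Matrix.mulVec_smul, hδu, hδv]
          · by_cases h6 : i = l
            · rw [h6, el, Matrix.mulVec_add, Matrix.mulVec_smul, Matrix.mulVec_smul, hδu, hδv]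
            · have h7 : i ∉ S := by
                intro h
                exact hi (Finset.mem_erase.2 ⟨h6, Finset.mem_erase.2 ⟨h5, h⟩⟩)
              refine mul_mulVec_eq (hfix i h7) (inv_mulVec_eq (EP_fix hτ ?_))
              intro w hw
              rw [dot_single, hw i h7]
      have h8 : γ = τ * (τ⁻¹ * γ) := by group
      rw [h8]
      exact hJ.mul hδJ

/-- The special orthogonal group `SO_N(ℂ)`. -/
abbrev GSo (N : ℕ) : Gps N := So.SOr N ℂ

theorem isSO_GSo (N : ℕ) : IsSO (GSo N) := fun γ => (isO_iff γ.1).symm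

theorem isForm_GSo (N : ℕ) : IsForm (GSo N) (1 : Mt N ℂ) := fun γ => by
  rw [mul_one]
  exact Iff.rfl

/-- Every special orthogonal matrix is joined with `1`. -/
theorem joined_GSo (hN : Odd N) : ∀ γ ∈ GSo N, Joined (GSo N) γ := fun γ hγ =>
  joined_SO_aux (isSO_GSo N) N Finset.univ (Finset.card_fin N) hN γ hγ
    (fun j hj => absurd (Finset.mem_univ j) hj)

/-- **The special orthogonal group is irreducible.** -/
theorem prime_GSo (hN : Odd N) : (vanI (GSo N)).IsPrime := prime_of_joined (joined_GSo hN)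

/-- The Lie algebra of the special orthogonal group. -/
theorem mem_lieAlg_GSo (Y : Mt N ℂ) : Y ∈ lieAlg (GSo N) ↔ Y.transpose + Y = 0 := by
  have h := (isForm_GSo N).mem_lieAlg (by rw [Matrix.det_one]; exact isUnit_one) Y
  rwa [mul_one, one_mul] at h

/-- The Lie algebra of the special orthogonal group is closed under the conjugate transpose. -/
theorem conjTranspose_mem_GSo {Y : Mt N ℂ} (hY : Y ∈ lieAlg (GSo N)) :
    Y.conjTranspose ∈ lieAlg (GSo N) := by
  rw [mem_lieAlg_GSo] at hY ⊢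
  have h := congrArg Matrix.conjTranspose hY
  rw [Matrix.conjTranspose_add, Matrix.conjTranspose_zero] at h
  exact h

theorem single_sub_mem (i j : Fin N) :
    Matrix.single i j (1 : ℂ) - Matrix.single j i 1 ∈ lieAlg (GSo N) := by
  rw [mem_lieAlg_GSo, Matrix.transpose_sub, Matrix.transpose_single, Matrix.transpose_single]
  abel

theorem single_sub_mulVec (i j : Fin N) (v : Fin N → ℂ) :
    (Matrix.single i j (1 : ℂ) - Matrix.single j i 1) *ᵥ v =
      v j • Pi.single i 1 - v i • Pi.single j 1 := by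
  rw [Matrix.sub_mulVec, Matrix.single_mulVec, Matrix.single_mulVec]
  ext l
  simp [Function.update_apply, Pi.single_apply]

/-- **The Killing form of the special orthogonal Lie algebra is nondegenerate.** -/
theorem kilDet_GSo (hN : 3 ≤ N) : KilDet (GSo N) := by
  refine kilDet_of_irr (by omega) (fun X hX => (isForm_GSo N).trace_eq_zero
    (by rw [Matrix.det_one]; exact isUnit_one) hX) ?_
  intro U hU h0
  obtain ⟨v, hv, hv0⟩ := Submodule.exists_mem_ne_zero_of_ne_bot h0
  obtain ⟨j, hj⟩ := Function.ne_iff.1 hv0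
  -- all the other basis vectors
  have h1 : ∀ k, k ≠ j → (Pi.single k 1 : Fin N → ℂ) ∈ U := by
    intro k hk
    obtain ⟨i, hij, hik⟩ : ∃ i : Fin N, i ≠ j ∧ i ≠ k := by
      have h3 : ((Finset.univ.erase j).erase k).Nonempty := by
        rw [← Finset.card_pos, Finset.card_erase_of_mem (Finset.mem_erase.2
          ⟨hk, Finset.mem_univ k⟩), Finset.card_erase_of_mem (Finset.mem_univ j), Finset.card_fin]
        omega
      obtain ⟨i, hi⟩ := h3
      rw [Finset.mem_erase, Finset.mem_erase] at hi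
      exact ⟨i, hi.2.1, hi.1⟩
    have h4 := hU _ (single_sub_mem i j) v hv
    have h5 := hU _ (single_sub_mem i k) _ h4
    rw [single_sub_mulVec, single_sub_mulVec] at h5
    have h6 : (v j • (Pi.single i 1 : Fin N → ℂ) - v i • (Pi.single j 1 : Fin N → ℂ)) k = 0 := by
      simp [Ne.symm hik, hk]
    have h7 : (v j • (Pi.single i 1 : Fin N → ℂ) - v i • (Pi.single j 1 : Fin N → ℂ)) i = v j := by
      simp [hij]
    rw [h6, h7, zero_smul, zero_sub] at h5
    exact (U.smul_mem_iff hj).1 ((U.neg_mem_iff).1 h5)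
  have h2 : (Pi.single j 1 : Fin N → ℂ) ∈ U := by
    obtain ⟨k, hk⟩ : ∃ k : Fin N, k ≠ j := by
      have h3 : (Finset.univ.erase j).Nonempty := by
        rw [← Finset.card_pos, Finset.card_erase_of_mem (Finset.mem_univ j), Finset.card_fin]
        omega
      obtain ⟨k, hk⟩ := h3
      exact ⟨k, (Finset.mem_erase.1 hk).1⟩
    have h4 := hU _ (single_sub_mem j k) _ (h1 k hk)
    rw [single_sub_mulVec, Pi.single_eq_same, Pi.single_eq_of_ne (Ne.symm hk), one_smul, zero_smul,
      sub_zero] at h4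
    exact h4
  rw [eq_top_iff]
  intro w _
  have h3 : w = ∑ i, w i • (Pi.single i 1 : Fin N → ℂ) := by
    ext l
    simp [Finset.sum_apply, Pi.single_apply]
  rw [h3]
  refine U.sum_mem fun i _ => U.smul_mem _ ?_
  by_cases hi : i = j
  · rw [hi]
    exact h2
  · exact h1 i hi

end

end Vale.Agent.P286.H295
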