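import Vale.Agent.P286.H44.C4
import Vale.Agent.P286.H987.InstSo
import Vale.Agent.P286.H295.SoG

/-!
# The Lie algebras of the three groups are stable under the conjugate transpose
-/

namespace Vale.Agent.P286.H295

open Matrix Vale.Agent.P286.Gen Vale.Agent.P286.H44 Vale.Agent.P286.H987

noncomputable section

theorem dag_GSp {N : ℕ} (hN : Even N) : Dag (GSp N) := fun _ hX =>
  (mem_lieAlg _).1 (conjTranspose_mem_GSp hN ((mem_lieAlg _).2 hX))

theorem dag_GSo (N : ℕ) : Dag (GSo N) := fun _ hX =>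
  (mem_lieAlg _).1 (conjTranspose_mem_GSo ((mem_lieAlg _).2 hX))

theorem dag_Spn {n : ℕ} (hn : 0 < n) : Dag (Spn n) := fun _ hX =>
  isLi_conjTranspose (gam n) (by omega) hX

end

end Vale.Agent.P286.H295
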