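import Vale.Agent.P286.H295.Trv

/-!
# Eichler transformations in the special orthogonal groups
-/

namespace Vale.Agent.P286.H295

open Matrix Vale.Agent.P286.Gen Vale.Agent.P286.H987

noncomputable section

variable {N : ℕ} {Γ : Gps N}

/-- The Eichler transformation. -/
def ec (u z : Fin N → ℂ) : Mt N ℂ :=
  1 + (vecMulVec z u - vecMulVec u z) - ((z ⬝ᵥ z) / 2) • vecMulVec u u

theorem vmv_mulVec (a b x : Fin N → ℂ) : vecMulVec a b *ᵥ x = (b ⬝ᵥ x) • a := by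
  rw [Matrix.vecMulVec_mulVec]
  ext i
  simp [mul_comm]

theorem ec_mulVec (u z x : Fin N → ℂ) :
    ec u z *ᵥ x = x + (u ⬝ᵥ x) • z - (z ⬝ᵥ x + (z ⬝ᵥ z) / 2 * (u ⬝ᵥ x)) • u := by
  unfold ec
  rw [Matrix.sub_mulVec, Matrix.add_mulVec, Matrix.sub_mulVec, Matrix.one_mulVec,
    Matrix.smul_mulVec, vmv_mulVec, vmv_mulVec, vmv_mulVec, smul_smul, add_smul]
  abel

/-- Isometries. -/
def IsO (g : Mt N ℂ) : Prop := ∀ x y, (g *ᵥ x) ⬝ᵥ (g *ᵥ y) = x ⬝ᵥ y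

theorem dot_ext {g : Mt N ℂ} (h : ∀ x y : Fin N → ℂ, x ⬝ᵥ (g *ᵥ y) = x ⬝ᵥ y) : g = 1 := by
  apply Matrix.ext_of_mulVec_single
  intro i
  rw [Matrix.one_mulVec]
  ext j
  have h1 := h (Pi.single j 1) (Pi.single i 1)
  rwa [single_one_dotProduct, single_one_dotProduct] at h1

theorem isO_iff (g : Mt N ℂ) : IsO g ↔ g.transpose * g = 1 := by
  have h : ∀ x y : Fin N → ℂ, (g *ᵥ x) ⬝ᵥ (g *ᵥ y) = x ⬝ᵥ ((g.transpose * g) *ᵥ y) := by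
    intro x y
    rw [← Matrix.mulVec_mulVec, dotProduct_mulVec x, Matrix.vecMul_transpose]
  constructor
  · intro hg
    apply dot_ext
    intro x y
    rw [← h, hg]
  · intro hg x y
    rw [h, hg, Matrix.one_mulVec]

theorem isO_ec {u z : Fin N → ℂ} (hu : u ⬝ᵥ u = 0) (hz : u ⬝ᵥ z = 0) : IsO (ec u z) := by
  intro x y
  rw [ec_mulVec, ec_mulVec]
  have hz' : z ⬝ᵥ u = 0 := by rw [dotProduct_comm, hz]
  simp only [sub_dotProduct, dotProduct_sub, add_dotProduct, dotProduct_add, smul_dotProduct,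
    dotProduct_smul, smul_eq_mul, hu, hz, hz']
  rw [dotProduct_comm x z, dotProduct_comm x u]
  ring

theorem ec_ec {u z z' : Fin N → ℂ} (hu : u ⬝ᵥ u = 0) (hz : u ⬝ᵥ z = 0) (hz' : u ⬝ᵥ z' = 0) :
    ec u z * ec u z' = ec u (z + z') := by
  apply Matrix.ext_of_mulVec_single
  intro i
  generalize (Pi.single i 1 : Fin N → ℂ) = x
  rw [← Matrix.mulVec_mulVec, ec_mulVec u z', ec_mulVec u z, ec_mulVec]
  have h1 : z ⬝ᵥ u = 0 := by rw [dotProduct_comm, hz]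
  have h3 : z' ⬝ᵥ z = z ⬝ᵥ z' := dotProduct_comm _ _
  simp only [sub_dotProduct, dotProduct_sub, add_dotProduct, dotProduct_add, smul_dotProduct,
    dotProduct_smul, smul_eq_mul, hu, hz, hz', h1, h3]
  ext j
  simp only [Pi.add_apply, Pi.sub_apply, Pi.smul_apply, smul_eq_mul]
  ring

theorem ec_zero (u : Fin N → ℂ) : ec u 0 = 1 := by
  unfold ec
  ext i j
  simp [vecMulVec]

theorem ec_det {u z : Fin N → ℂ} (hu : u ⬝ᵥ u = 0) (hz : u ⬝ᵥ z = 0) : (ec u z).det = 1 := by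
  have hz2 : u ⬝ᵥ ((1 / 2 : ℂ) • z) = 0 := by rw [dotProduct_smul, hz, smul_zero]
  have h : ec u z = ec u ((1 / 2 : ℂ) • z) * ec u ((1 / 2 : ℂ) • z) := by
    rw [ec_ec hu hz2 hz2, ← add_smul]
    norm_num
  have h1 := congrArg Matrix.det ((isO_iff _).1 (isO_ec hu hz2))
  rw [Matrix.det_mul, Matrix.det_transpose, Matrix.det_one] at h1
  rw [h, Matrix.det_mul, h1]

/-- The Eichler transformation as an element of `SL_N`. -/
def ecG {u z : Fin N → ℂ} (hu : u ⬝ᵥ u = 0) (hz : u ⬝ᵥ z = 0) : SpecialLinearGroup (Fin N) ℂ :=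
  ⟨ec u z, ec_det hu hz⟩

/-- `Γ` is the special orthogonal group. -/
def IsSO (Γ : Gps N) : Prop := ∀ γ : SpecialLinearGroup (Fin N) ℂ, γ ∈ Γ ↔ IsO γ.1

theorem ecG_mem (hΓ : IsSO Γ) {u z : Fin N → ℂ} (hu : u ⬝ᵥ u = 0) (hz : u ⬝ᵥ z = 0) :
    ecG hu hz ∈ Γ := (hΓ _).2 (isO_ec hu hz)

theorem dot_smul_zero {u z : Fin N → ℂ} (hz : u ⬝ᵥ z = 0) (t : ℂ) : u ⬝ᵥ (t • z) = 0 := by
  rw [dotProduct_smul, hz, smul_zero]

open Polynomial in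
theorem joined_ecG (hΓ : IsSO Γ) {u z : Fin N → ℂ} (hu : u ⬝ᵥ u = 0) (hz : u ⬝ᵥ z = 0) :
    Joined Γ (ecG hu hz) := by
  let c : Mt N ℂ[X] := 1 + (X : ℂ[X]) • cm ℂ[X] (vecMulVec z u - vecMulVec u z) -
    (X : ℂ[X]) ^ 2 • cm ℂ[X] (((z ⬝ᵥ z) / 2) • vecMulVec u u)
  have hc : ∀ t : ℂ, Ev c t = ec u (t • z) := by
    intro t
    ext i j
    rw [Ev_apply]
    simp only [c, ec, Matrix.add_apply, Matrix.sub_apply, Matrix.smul_apply, Matrix.one_apply, cm,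
      Matrix.map_apply, smul_eq_mul, Polynomial.eval_add, Polynomial.eval_sub, Polynomial.eval_mul,
      Polynomial.eval_pow, Polynomial.eval_X, vecMulVec_apply, Pi.smul_apply, smul_dotProduct,
      dotProduct_smul]
    rw [← Polynomial.C_eq_algebraMap, ← Polynomial.C_eq_algebraMap, Polynomial.eval_C,
      Polynomial.eval_C]
    split_ifs <;> simp <;> ring
  refine ⟨c, ?_, ?_, fun t => ⟨ecG hu (dot_smul_zero hz t), ecG_mem hΓ hu _, ?_⟩⟩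
  · rw [hc, zero_smul, ec_zero]
  · rw [hc, one_smul]
    rfl
  · rw [hc]
    rfl

/-- The group generated by the Eichler transformations of `W`. -/
def EP (W : Submodule ℂ (Fin N → ℂ)) : Subgroup (SpecialLinearGroup (Fin N) ℂ) :=
  Subgroup.closure {γ | ∃ u ∈ W, ∃ z ∈ W, ∃ (hu : u ⬝ᵥ u = 0) (hz : u ⬝ᵥ z = 0), γ = ecG hu hz}

theorem ecG_mem_EP {W : Submodule ℂ (Fin N → ℂ)} {u z : Fin N → ℂ} (huW : u ∈ W) (hzW : z ∈ W)
    (hu : u ⬝ᵥ u = 0) (hz : u ⬝ᵥ z = 0) : ecG hu hz ∈ EP W :=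
  Subgroup.subset_closure ⟨u, huW, z, hzW, hu, hz, rfl⟩

theorem joined_EP (hΓ : IsSO Γ) {W : Submodule ℂ (Fin N → ℂ)}
    {γ : SpecialLinearGroup (Fin N) ℂ} (h : γ ∈ EP W) : Joined Γ γ ∧ γ ∈ Γ := by
  unfold EP at h
  induction h using Subgroup.closure_induction with
  | mem x hx =>
    obtain ⟨u, -, z, -, hu, hz, rfl⟩ := hx
    exact ⟨joined_ecG hΓ hu hz, ecG_mem hΓ hu hz⟩
  | one => exact ⟨Joined.one Γ, Γ.one_mem⟩
  | mul x y _ _ hx hy => exact ⟨hx.1.mul hy.1, Γ.mul_mem hx.2 hy.2⟩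
  | inv x _ hx => exact ⟨hx.1.inv, Γ.inv_mem hx.2⟩

theorem EP_fix {W : Submodule ℂ (Fin N → ℂ)} {γ : SpecialLinearGroup (Fin N) ℂ} (h : γ ∈ EP W)
    {x : Fin N → ℂ} (hx : ∀ w ∈ W, w ⬝ᵥ x = 0) : γ.1 *ᵥ x = x := by
  unfold EP at h
  induction h using Subgroup.closure_induction with
  | mem γ hγ =>
    obtain ⟨u, huW, z, hzW, hu, hz, rfl⟩ := hγ
    change ec u z *ᵥ x = x
    rw [ec_mulVec, hx u huW, hx z hzW, mul_zero, add_zero, zero_smul, zero_smul, add_zero, sub_zero]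
  | one => exact Matrix.one_mulVec x
  | mul γ δ _ _ hγ hδ => exact mul_mulVec_eq hδ hγ
  | inv γ _ hγ => exact inv_mulVec_eq hγ

theorem EP_pres {W : Submodule ℂ (Fin N → ℂ)} {γ : SpecialLinearGroup (Fin N) ℂ} (h : γ ∈ EP W) :
    (∀ x ∈ W, γ.1 *ᵥ x ∈ W) ∧ (∀ x ∈ W, (γ⁻¹).1 *ᵥ x ∈ W) := by
  have ecp : ∀ u ∈ W, ∀ z ∈ W, ∀ x ∈ W, ec u z *ᵥ x ∈ W := by
    intro u hu z hz x hx
    rw [ec_mulVec]
    exact W.sub_mem (W.add_mem hx (W.smul_mem _ hz)) (W.smul_mem _ hu)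
  unfold EP at h
  induction h using Subgroup.closure_induction with
  | mem γ hγ =>
    obtain ⟨u, huW, z, hzW, hu, hz, rfl⟩ := hγ
    refine ⟨ecp u huW z hzW, ?_⟩
    have hz' : u ⬝ᵥ (-z) = 0 := by rw [dotProduct_neg, hz, neg_zero]
    have hi : (ecG hu hz)⁻¹ = ecG hu hz' := by
      rw [inv_eq_iff_mul_eq_one]
      apply Subtype.ext
      change ec u z * ec u (-z) = 1
      rw [ec_ec hu hz hz', add_neg_cancel, ec_zero]
    rw [hi]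
    exact ecp u huW (-z) (W.neg_mem hzW)
  | one =>
    refine ⟨fun x hx => ?_, fun x hx => ?_⟩
    · change (1 : Mt N ℂ) *ᵥ x ∈ W
      rwa [Matrix.one_mulVec]
    · rw [inv_one]
      change (1 : Mt N ℂ) *ᵥ x ∈ W
      rwa [Matrix.one_mulVec]
  | mul γ δ _ _ hγ hδ =>
    refine ⟨fun x hx => ?_, fun x hx => ?_⟩
    · rw [mul_mulVec_eq rfl rfl]
      exact hγ.1 _ (hδ.1 x hx)
    · rw [_root_.mul_inv_rev, mul_mulVec_eq rfl rfl]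
      exact hδ.2 _ (hγ.2 x hx)
  | inv γ _ hγ =>
    rw [inv_inv]
    exact ⟨hγ.2, hγ.1⟩

/-- `x` is moved to `y` by the Eichler transformations of `W`. -/
def Mv (W : Submodule ℂ (Fin N → ℂ)) (x y : Fin N → ℂ) : Prop := ∃ γ ∈ EP W, γ.1 *ᵥ x = y

theorem Mv.trans {W : Submodule ℂ (Fin N → ℂ)} {x y z : Fin N → ℂ} (h : Mv W x y)
    (h' : Mv W y z) : Mv W x z := by
  obtain ⟨γ, hγ, e⟩ := h
  obtain ⟨δ, hδ, e'⟩ := h'
  exact ⟨δ * γ, (EP W).mul_mem hδ hγ, mul_mulVec_eq e e'⟩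

/-- One step, with a fixed vector. -/
theorem exists_ec {W : Submodule ℂ (Fin N → ℂ)} {a u u' : Fin N → ℂ} (ha : a ∈ W) (hu : u ∈ W)
    (hu' : u' ∈ W) (ha0 : a ⬝ᵥ a = 0) (hu0 : u ⬝ᵥ u = 0) (hu0' : u' ⬝ᵥ u' = 0)
    (h : a ⬝ᵥ u ≠ 0) (h' : a ⬝ᵥ u = a ⬝ᵥ u') :
    ∃ γ ∈ EP W, γ.1 *ᵥ a = a ∧ γ.1 *ᵥ u = u' := by
  set c := a ⬝ᵥ u with hc
  have hz : a ⬝ᵥ (c⁻¹ • (u' - u)) = 0 := by
    rw [dotProduct_smul, dotProduct_sub, ← h', ← hc, sub_self, smul_zero]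
  have hz' : (u' - u) ⬝ᵥ a = 0 := by
    rw [sub_dotProduct, dotProduct_comm u', dotProduct_comm u, ← h', ← hc, sub_self]
  refine ⟨ecG ha0 hz, ecG_mem_EP ha (W.smul_mem _ (W.sub_mem hu' hu)) ha0 hz, ?_, ?_⟩
  · change ec a (c⁻¹ • (u' - u)) *ᵥ a = a
    rw [ec_mulVec, ha0, smul_dotProduct, hz', smul_zero, zero_smul, mul_zero, add_zero, add_zero,
      zero_smul, sub_zero]
  · change ec a (c⁻¹ • (u' - u)) *ᵥ u = u'
    rw [ec_mulVec, ← hc, smul_smul, mul_inv_cancel₀ h, one_smul]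
    have e : (c⁻¹ • (u' - u)) ⬝ᵥ u + (c⁻¹ • (u' - u)) ⬝ᵥ (c⁻¹ • (u' - u)) / 2 * c = 0 := by
      simp only [smul_dotProduct, dotProduct_smul, sub_dotProduct, dotProduct_sub, hu0, hu0',
        smul_eq_mul, dotProduct_comm u u']
      field_simp
      ring
    rw [e, zero_smul, sub_zero]
    abel

/-- Two isotropic vectors which are not orthogonal. -/
theorem Mv.of_ne {W : Submodule ℂ (Fin N → ℂ)} {u b z : Fin N → ℂ} (hu : u ∈ W) (hb : b ∈ W)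
    (hz : z ∈ W) (hu0 : u ⬝ᵥ u = 0) (hb0 : b ⬝ᵥ b = 0) (hub : u ⬝ᵥ b ≠ 0) (hzu : z ⬝ᵥ u = 0)
    (hzb : z ⬝ᵥ b = 0) (hzz : z ⬝ᵥ z ≠ 0) : Mv W u b := by
  obtain ⟨α, hα⟩ := IsAlgClosed.exists_pow_nat_eq (-(z ⬝ᵥ z) / (2 * (u ⬝ᵥ b))) two_pos
  have hα0 : α ≠ 0 := by
    rintro rfl
    rw [zero_pow two_ne_zero] at hα
    have h1 : -(z ⬝ᵥ z) / (2 * (u ⬝ᵥ b)) ≠ 0 :=
      div_ne_zero (neg_ne_zero.2 hzz) (mul_ne_zero two_ne_zero hub)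
    exact h1 hα.symm
  have hbu : b ⬝ᵥ u = u ⬝ᵥ b := dotProduct_comm _ _
  have huz : u ⬝ᵥ z = 0 := by rw [dotProduct_comm, hzu]
  have hbz : b ⬝ᵥ z = 0 := by rw [dotProduct_comm, hzb]
  have ha0 : (α • u + α • b + z) ⬝ᵥ (α • u + α • b + z) = 0 := by
    simp only [add_dotProduct, dotProduct_add, smul_dotProduct, dotProduct_smul, smul_eq_mul, hu0,
      hb0, hzu, hzb, huz, hbz, hbu]
    have h2 : α ^ 2 * (2 * (u ⬝ᵥ b)) = - (z ⬝ᵥ z) := by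
      rw [hα, div_mul_cancel₀]
      exact mul_ne_zero two_ne_zero hub
    linear_combination h2
  have e1 : (α • u + α • b + z) ⬝ᵥ u = α * (u ⬝ᵥ b) := by
    simp only [add_dotProduct, smul_dotProduct, smul_eq_mul, hu0, hzu, hbu]
    ring
  have e2 : (α • u + α • b + z) ⬝ᵥ b = α * (u ⬝ᵥ b) := by
    simp only [add_dotProduct, smul_dotProduct, smul_eq_mul, hb0, hzb]
    ring
  obtain ⟨γ, hγ, -, h3⟩ := exists_ec (W.add_mem (W.add_mem (W.smul_mem α hu) (W.smul_mem α hb)) hz)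
    hu hb ha0 hu0 hb0 (by rw [e1]; exact mul_ne_zero hα0 hub) (by rw [e1, e2])
  exact ⟨γ, hγ, h3⟩

end

end Vale.Agent.P286.H295
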