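import Vale.Agent.P286.H987.EvHom
import Vale.Agent.P286.H987.Inst
import Vale.Agent.P286.H341.Lam
import Vale.Agent.P286.H44.C4

/-!
# The exterior algebra of the dual of a Lie algebra and the left invariant forms

`P : FRep Γ S` is a representation whose differential is an isomorphism with the Lie algebra of `S`,
and `e` is an orthonormal basis of the latter.  `P.lg e` maps the generator `a` to the coordinate `a`
of `ρ(g)⁻¹ dρ(g)`.
-/

namespace Vale.Agent.P286.H295

open Matrix Vale.Agent.P286.Gen Vale.Agent.P286.H710 Vale.Agent.P286.H847 Vale.Agent.P286.H44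
  Vale.Agent.P286.H103 Vale.Agent.P286.H987 Vale.Agent.P286.H341

noncomputable section

set_option linter.unusedSectionVars false

section D0

variable {α : Type} [Fintype α] [DecidableEq α] (c : α → α → α → ℂ)

theorem dLam_gn' (x : Ex α) : dLam c x =
    (-(1 / 2) : ℂ) • ∑ a, ∑ b, ∑ l, c a b l • (Ex.gn a * (Ex.gn b * Ex.io l x)) :=
  dLam_apply c x

theorem dLam_one : dLam c (1 : Ex α) = 0 := by
  rw [dLam_gn']
  simp only [Ex.io_one, mul_zero, smul_zero, Finset.sum_const_zero]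

theorem gn_swap (a b : α) (x : Ex α) : Ex.gn a * (Ex.gn b * x) = -(Ex.gn b * (Ex.gn a * x)) :=
  LinearMap.congr_fun (Ex.th_th a b) x

theorem io_gn_mul (a b : α) (x : Ex α) :
    Ex.io a (Ex.gn b * x) = (if a = b then x else 0) - Ex.gn b * Ex.io a x :=
  Ex.io_th_apply a b x

theorem dLam_gn (j : α) : dLam c (Ex.gn j) =
    (-(1 / 2) : ℂ) • ∑ a, ∑ b, c a b j • (Ex.gn a * Ex.gn b) := by
  have h0 : (Ex.gn j : Ex α) = Ex.gn j * 1 := (mul_one _).symm
  rw [h0, dLam_gn']
  congr 1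
  refine Finset.sum_congr rfl fun a _ => Finset.sum_congr rfl fun b _ => ?_
  rw [Finset.sum_eq_single j]
  · rw [io_gn_mul, if_pos rfl, Ex.io_one, mul_zero, sub_zero, mul_one]
  · intro l _ hl
    rw [io_gn_mul, if_neg hl, Ex.io_one, mul_zero, sub_zero, mul_zero, mul_zero, smul_zero]
  · intro h
    exact absurd (Finset.mem_univ _) h

theorem dLam_gn_mul (j : α) (x : Ex α) :
    dLam c (Ex.gn j * x) = dLam c (Ex.gn j) * x - Ex.gn j * dLam c x := by
  have h1 : ∀ a b l, c a b l • (Ex.gn a * (Ex.gn b * Ex.io l (Ex.gn j * x))) =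
      (if l = j then c a b l • (Ex.gn a * (Ex.gn b * x)) else 0) -
        Ex.gn j * (c a b l • (Ex.gn a * (Ex.gn b * Ex.io l x))) := by
    intro a b l
    rw [io_gn_mul, mul_sub, mul_sub, smul_sub, gn_swap b j, mul_neg, gn_swap a j, neg_neg,
      mul_smul_comm]
    congr 1
    split_ifs
    · rfl
    · rw [mul_zero, mul_zero, smul_zero]
  rw [dLam_gn', dLam_gn, dLam_gn']
  simp only [h1, Finset.sum_sub_distrib, Finset.sum_ite_eq', Finset.mem_univ, if_true,
    ← Finset.mul_sum]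
  rw [smul_sub, mul_smul_comm, smul_mul_assoc, Finset.sum_mul]
  simp only [Finset.sum_mul, smul_mul_assoc, mul_assoc]

end D0

section Map

variable {N : ℕ} {Γ : Gps N} {I : Type} [Fintype I] [DecidableEq I] {S : H374.Dat I}
  (P : FRep Γ S) {k : ℕ} (e : Fin k → Matrix I I ℂ)

/-- The coordinates of the images of the basis. -/
def cof (a : Fin k) (i : Fin (dm Γ)) : ℂ := trace (P.R.drL (bs Γ i) * (e a)ᴴ)

/-- The map on the generators. -/
def cofL : (Fin k → ℂ) →ₗ[ℂ] (Fin (dm Γ) → ℂ) :=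
  Matrix.vecMulLinear (Matrix.of fun a i => cof P e a i)

theorem cofL_apply (v : Fin k → ℂ) (i : Fin (dm Γ)) : cofL P e v i = ∑ a, v a * cof P e a i := rfl

variable {e} (h : H166.Onb (H166.lieS S) e)

include h

theorem drL_bs (i : Fin (dm Γ)) : P.R.drL (bs Γ i) = ∑ a, cof P e a i • e a :=
  h.exp _ (P.mem _)

/-- The elements of the Lie algebra of the group which correspond to the orthonormal basis. -/
def xe (a : Fin k) : lieAlg Γ := P.equiv.symm ⟨e a, h.mem a⟩

theorem drL_xe (a : Fin k) : P.R.drL (xe P h a) = e a := by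
  rw [← P.equiv_val, xe, LinearEquiv.apply_symm_apply]

/-- The inverse matrix. -/
def coi (i : Fin (dm Γ)) (a : Fin k) : ℂ := (bs Γ).repr (xe P h a) i

theorem e_eq (a : Fin k) : e a = ∑ i, coi P h i a • P.R.drL (bs Γ i) := by
  rw [← drL_xe P h a]
  conv_lhs => rw [← (bs Γ).sum_repr (xe P h a), map_sum]
  exact Finset.sum_congr rfl fun i _ => map_smul _ _ _

theorem cof_coi (a b : Fin k) : ∑ i, coi P h i a * cof P e b i = if a = b then 1 else 0 := by
  rw [← h.orth a b]
  conv_rhs => rw [e_eq P h a, Finset.sum_mul, trace_sum]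
  refine Finset.sum_congr rfl fun i _ => ?_
  rw [smul_mul_assoc, trace_smul, smul_eq_mul]
  rfl

theorem coi_cof (i j : Fin (dm Γ)) : ∑ a, cof P e a i * coi P h j a = if i = j then 1 else 0 := by
  have h1 : bs Γ i = ∑ a, cof P e a i • xe P h a := by
    apply P.inj
    rw [drL_bs P h, map_sum]
    refine Finset.sum_congr rfl fun a _ => ?_
    rw [map_smul, drL_xe]
  have h2 := congrArg (fun x => (bs Γ).repr x j) h1
  simp only [map_sum, map_smul, Finsupp.coe_finsetSum, Finset.sum_apply, Finsupp.coe_smul,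
    Pi.smul_apply, smul_eq_mul, Module.Basis.repr_self, Finsupp.single_apply] at h2
  exact h2.symm

/-- The inverse of the map on the generators. -/
def coiL : (Fin (dm Γ) → ℂ) →ₗ[ℂ] (Fin k → ℂ) :=
  Matrix.vecMulLinear (Matrix.of fun i a => coi P h i a)

omit h in
theorem vecMulLinear_comp_one {κ ν : Type} [Fintype κ] [Fintype ν] [DecidableEq κ]
    (A : Matrix κ ν ℂ) (B : Matrix ν κ ℂ) (hAB : A * B = 1) :
    (Matrix.vecMulLinear B) ∘ₗ (Matrix.vecMulLinear A) = LinearMap.id := by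
  refine LinearMap.ext fun v => ?_
  change (v ᵥ* A) ᵥ* B = v
  rw [Matrix.vecMul_vecMul, hAB, Matrix.vecMul_one]

theorem coiL_cofL : (coiL P h) ∘ₗ (cofL P e) = LinearMap.id := by
  apply vecMulLinear_comp_one
  ext a b
  rw [Matrix.mul_apply, Matrix.one_apply]
  refine Eq.trans (Finset.sum_congr rfl fun i _ => mul_comm _ _) ((cof_coi P h b a).trans ?_)
  by_cases hab : a = b
  · rw [if_pos hab, if_pos hab.symm]
  · rw [if_neg hab, if_neg (Ne.symm hab)]

theorem cofL_coiL : (cofL P e) ∘ₗ (coiL P h) = LinearMap.id := by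
  apply vecMulLinear_comp_one
  ext i j
  rw [Matrix.mul_apply, Matrix.one_apply]
  refine Eq.trans (Finset.sum_congr rfl fun a _ => mul_comm _ _) ((coi_cof P h j i).trans ?_)
  by_cases hab : i = j
  · rw [if_pos hab, if_pos hab.symm]
  · rw [if_neg hab, if_neg (Ne.symm hab)]

omit h

/-- The homomorphism to the algebra of forms. -/
def lg (P : FRep Γ S) {k : ℕ} (e : Fin k → Matrix I I ℂ) : Ex (Fin k) →ₐ[ℂ] Om ℂ (Of Γ) :=
  (liMap Γ).comp (ExteriorAlgebra.map (cofL P e))

theorem lg_ι (v : Fin k → ℂ) : lg P e (ExteriorAlgebra.ι ℂ v) =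
    ∑ i, (cofL P e v i) • tho Γ i := by
  rw [lg, AlgHom.comp_apply, ExteriorAlgebra.map_apply_ι, liMap_ι]

theorem lg_gn (a : Fin k) : lg P e (Ex.gn a) = ∑ i, cof P e a i • tho Γ i := by
  rw [Ex.gn, lg_ι]
  refine Finset.sum_congr rfl fun i _ => ?_
  congr 1
  rw [cofL_apply, Finset.sum_eq_single a]
  · rw [Pi.single_eq_same, one_mul]
  · intro b _ hb
    rw [Pi.single_eq_of_ne hb, zero_mul]
  · intro h
    exact absurd (Finset.mem_univ _) h

/-- The generators are mapped to one-forms. -/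
theorem exists_lg_ι (v : Fin k → ℂ) : ∃ μ : Ω[Of Γ⁄ℂ],
    lg P e (ExteriorAlgebra.ι ℂ v) = ExteriorAlgebra.ι (Of Γ) μ := by
  refine ⟨∑ i, algebraMap ℂ (Of Γ) (cofL P e v i) • th Γ i, ?_⟩
  rw [lg_ι, map_sum]
  refine Finset.sum_congr rfl fun i _ => ?_
  rw [map_smul]
  exact (cst_smul _ _).symm

include h

theorem map_cofL_bijective : Function.Bijective (ExteriorAlgebra.map (cofL P e)) := by
  have h1 : ∀ x, ExteriorAlgebra.map (coiL P h) (ExteriorAlgebra.map (cofL P e) x) = x := by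
    intro x
    have := AlgHom.congr_fun (ExteriorAlgebra.map_comp_map (cofL P e) (coiL P h)) x
    rw [coiL_cofL, ExteriorAlgebra.map_id] at this
    exact this
  have h2 : ∀ x, ExteriorAlgebra.map (cofL P e) (ExteriorAlgebra.map (coiL P h) x) = x := by
    intro x
    have := AlgHom.congr_fun (ExteriorAlgebra.map_comp_map (coiL P h) (cofL P e)) x
    rw [cofL_coiL, ExteriorAlgebra.map_id] at this
    exact this
  exact ⟨Function.LeftInverse.injective h1, Function.RightInverse.surjective h2⟩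

theorem lg_injective (hP : (vanI Γ).IsPrime) : Function.Injective (lg P e) :=
  (liMap_injective hP).comp (map_cofL_bijective P h).1

theorem lg_range (hP : (vanI Γ).IsPrime) {x : Om ℂ (Of Γ)} :
    x ∈ H103.LI Γ ↔ ∃ y, lg P e y = x := by
  rw [liMap_range hP]
  constructor
  · rintro ⟨y, rfl⟩
    obtain ⟨z, rfl⟩ := (map_cofL_bijective P h).2 y
    exact ⟨z, rfl⟩
  · rintro ⟨y, rfl⟩
    exact ⟨_, rfl⟩

/-- The matrix `ρ(g)⁻¹ dρ(g)` in terms of the images of the generators. -/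
theorem sum_e_lg (i j : I) : ∑ a, e a i j • lg P e (Ex.gn a) =
    ∑ l, P.R.drL (bs Γ l) i j • tho Γ l := by
  have h1 : ∀ l, P.R.drL (bs Γ l) i j = ∑ a, cof P e a l * e a i j := by
    intro l
    have h2 := congrFun (congrFun (drL_bs P h l) i) j
    rw [Matrix.sum_apply] at h2
    exact h2
  simp only [lg_gn, h1, Finset.smul_sum, Finset.sum_smul, smul_smul]
  rw [Finset.sum_comm]
  refine Finset.sum_congr rfl fun l _ => Finset.sum_congr rfl fun a _ => ?_
  rw [mul_comm]

/-- The evaluation at the inverse of the universal point. -/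
theorem evx_th_eq (hP : (vanI Γ).IsPrime) (n : ℕ) (i j : I) :
    P.R.evx n (ug Γ)⁻¹ (Wk.th I n i j) = ∑ a, e a i j • lg P e (Ex.gn a) := by
  rw [P.R.evx_inv_th' hP, sum_e_lg P h]

/-- The images of the generators in terms of the matrix. -/
theorem lg_gn_eq (hP : (vanI Γ).IsPrime) (n : ℕ) (a : Fin k) : lg P e (Ex.gn a) =
    ∑ i, ∑ j, star (e a i j) • P.R.evx n (ug Γ)⁻¹ (Wk.th I n i j) := by
  have h1 : ∀ b, ∑ i, ∑ j, star (e a i j) * e b i j = if b = a then 1 else 0 := by
    intro b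
    rw [← h.orth b a, trace]
    refine Finset.sum_congr rfl fun i _ => ?_
    rw [Matrix.diag_apply, Matrix.mul_apply]
    refine Finset.sum_congr rfl fun j _ => ?_
    rw [Matrix.conjTranspose_apply, mul_comm]
  simp only [evx_th_eq P h hP, Finset.smul_sum, smul_smul]
  have h2 : ∑ i, ∑ j, ∑ b, (star (e a i j) * e b i j) • lg P e (Ex.gn b) =
      ∑ b, (∑ i, ∑ j, star (e a i j) * e b i j) • lg P e (Ex.gn b) := by
    simp only [Finset.sum_smul]
    refine Eq.trans (Finset.sum_congr rfl fun i _ => Finset.sum_comm) ?_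
    exact Finset.sum_comm
  rw [h2]
  simp only [h1, ite_smul, one_smul, zero_smul, Finset.sum_ite_eq', Finset.mem_univ, if_true]

omit h in
theorem lg_gn_swap (a b : Fin k) :
    lg P e (Ex.gn a) * lg P e (Ex.gn b) = -(lg P e (Ex.gn b) * lg P e (Ex.gn a)) := by
  rw [← map_mul, ← map_mul, ← _root_.map_neg]
  congr 1
  have := gn_swap a b (1 : Ex (Fin k))
  rwa [mul_one, mul_one] at this

omit h in
theorem om_d_csum {κ : Type} (s : Finset κ) (c : κ → ℂ) (x : κ → Om ℂ (Of Γ)) :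
    Om.d (∑ i ∈ s, c i • x i) = ∑ i ∈ s, c i • Om.d (x i) := by
  have h1 := map_sum (dL (Of Γ)) (fun i => c i • x i) s
  simp only [map_smul] at h1
  exact h1

omit h in
/-- The antisymmetrisation. -/
theorem anti_sum {R : Type} [Ring R] [Algebra ℂ R] (t : Fin k → Fin k → ℂ) (w : Fin k → R)
    (hw : ∀ a b, w a * w b = -(w b * w a)) :
    ∑ a, ∑ b, t a b • (w a * w b) = (1 / 2 : ℂ) • ∑ a, ∑ b, (t a b - t b a) • (w a * w b) := by
  have h1 : ∑ a, ∑ b, t b a • (w a * w b) = -∑ a, ∑ b, t a b • (w a * w b) := by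
    rw [Finset.sum_comm, ← Finset.sum_neg_distrib]
    refine Finset.sum_congr rfl fun a _ => ?_
    rw [← Finset.sum_neg_distrib]
    refine Finset.sum_congr rfl fun b _ => ?_
    rw [hw b a, smul_neg]
  simp only [sub_smul, Finset.sum_sub_distrib]
  rw [h1, sub_neg_eq_add, ← two_smul ℂ, smul_smul]
  norm_num

/-- The differential of the images of the generators. -/
theorem d_lg_gn (hP : (vanI Γ).IsPrime) (a : Fin k) :
    Om.d (lg P e (Ex.gn a)) = lg P e (dLam (H166.stc e) (Ex.gn a)) := by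
  have h1 : ∀ i j, Om.d (P.R.evx 0 (ug Γ)⁻¹ (Wk.th I 0 i j)) =
      - ∑ l, P.R.evx 0 (ug Γ)⁻¹ (Wk.th I 0 i l) * P.R.evx 0 (ug Γ)⁻¹ (Wk.th I 0 l j) := by
    intro i j
    rw [← P.R.evx_d, Wk.d_th, Matrix.sub_apply, map_sub, P.R.evx_Fm, zero_sub, Matrix.mul_apply,
      map_sum]
    congr 1
    exact Finset.sum_congr rfl fun l _ => map_mul _ _ _
  have h2 : ∀ i j, ∑ l, P.R.evx 0 (ug Γ)⁻¹ (Wk.th I 0 i l) *
      P.R.evx 0 (ug Γ)⁻¹ (Wk.th I 0 l j) =
      ∑ b, ∑ c, (e b * e c) i j • (lg P e (Ex.gn b) * lg P e (Ex.gn c)) := by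
    intro i j
    have h3 : ∀ l, P.R.evx 0 (ug Γ)⁻¹ (Wk.th I 0 i l) * P.R.evx 0 (ug Γ)⁻¹ (Wk.th I 0 l j) =
        ∑ b, ∑ c, (e b i l * e c l j) • (lg P e (Ex.gn b) * lg P e (Ex.gn c)) := by
      intro l
      rw [evx_th_eq P h hP, evx_th_eq P h hP, Finset.sum_mul_sum]
      refine Finset.sum_congr rfl fun b _ => Finset.sum_congr rfl fun c _ => ?_
      rw [smul_mul_smul_comm]
    rw [Finset.sum_congr rfl fun l _ => h3 l, Finset.sum_comm]
    refine Finset.sum_congr rfl fun b _ => ?_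
    rw [Finset.sum_comm]
    refine Finset.sum_congr rfl fun c _ => ?_
    rw [Matrix.mul_apply, Finset.sum_smul]
  have h3 : Om.d (lg P e (Ex.gn a)) = -∑ b, ∑ c, trace (e b * e c * (e a)ᴴ) •
      (lg P e (Ex.gn b) * lg P e (Ex.gn c)) := by
    rw [lg_gn_eq P h hP 0 a]
    have h4 : Om.d (∑ i, ∑ j, star (e a i j) • P.R.evx 0 (ug Γ)⁻¹ (Wk.th I 0 i j)) =
        ∑ i, ∑ j, star (e a i j) • Om.d (P.R.evx 0 (ug Γ)⁻¹ (Wk.th I 0 i j)) := by
      have h5 := map_sum (dL (Of Γ))
        (fun i => ∑ j, star (e a i j) • P.R.evx 0 (ug Γ)⁻¹ (Wk.th I 0 i j)) Finset.univ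
      refine h5.trans (Finset.sum_congr rfl fun i _ => om_d_csum _ _ _)
    rw [h4]
    simp only [h1, h2, smul_neg, Finset.sum_neg_distrib, Finset.smul_sum, smul_smul]
    congr 1
    have h6 : ∀ b c, trace (e b * e c * (e a)ᴴ) = ∑ i, ∑ j, star (e a i j) * (e b * e c) i j := by
      intro b c
      rw [trace]
      refine Finset.sum_congr rfl fun i _ => ?_
      rw [Matrix.diag_apply, Matrix.mul_apply]
      refine Finset.sum_congr rfl fun j _ => ?_
      rw [Matrix.conjTranspose_apply, mul_comm]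
    simp only [h6, Finset.sum_smul]
    calc ∑ i, ∑ j, ∑ b, ∑ c, (star (e a i j) * (e b * e c) i j) •
          (lg P e (Ex.gn b) * lg P e (Ex.gn c)) =
        ∑ i, ∑ b, ∑ c, ∑ j, (star (e a i j) * (e b * e c) i j) •
          (lg P e (Ex.gn b) * lg P e (Ex.gn c)) := by
          refine Finset.sum_congr rfl fun i _ => ?_
          refine Finset.sum_comm.trans (Finset.sum_congr rfl fun b _ => ?_)
          exact Finset.sum_comm
      _ = _ := by
          refine Finset.sum_comm.trans (Finset.sum_congr rfl fun b _ => ?_)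
          exact Finset.sum_comm
  have h7 : ∀ b c, H166.stc e b c a = trace (e b * e c * (e a)ᴴ) - trace (e c * e b * (e a)ᴴ) := by
    intro b c
    rw [H166.stc, sub_mul, trace_sub]
  rw [h3, anti_sum _ _ (lg_gn_swap P), dLam_gn, map_smul, map_sum, neg_smul]
  congr 2
  refine Finset.sum_congr rfl fun b _ => ?_
  rw [map_sum]
  refine Finset.sum_congr rfl fun c _ => ?_
  rw [map_smul, map_mul, h7]

omit h in
theorem sg_lg_gn (a : Fin k) : Om.sg (lg P e (Ex.gn a)) = -lg P e (Ex.gn a) := by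
  obtain ⟨μ, hμ⟩ := exists_lg_ι P (e := e) (Pi.single a 1)
  rw [Ex.gn, hμ, Om.sg_ι]

/-- The map is a chain map. -/
theorem d_lg (hP : (vanI Γ).IsPrime) (x : Ex (Fin k)) :
    Om.d (lg P e x) = lg P e (dLam (H166.stc e) x) := by
  induction x using Ex.ind with
  | h1 => rw [dLam_one, map_zero, map_one, ← map_one (algebraMap (Of Γ) (Om ℂ (Of Γ))),
      Om.d_algebraMap, Om.dd, Derivation.map_one_eq_zero, map_zero]
  | hs c x hx => rw [map_smul, map_smul, map_smul, Om.d_csmul, hx]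
  | ha x y hx hy => rw [map_add, map_add, map_add, Om.d_add, hx, hy]
  | hm v x hx =>
    have h1 : ∀ a, Om.d (lg P e (Ex.gn a * x)) = lg P e (dLam (H166.stc e) (Ex.gn a * x)) := by
      intro a
      rw [dLam_gn_mul, map_sub, map_mul, map_mul, map_mul, Om.d_mul, sg_lg_gn, hx, d_lg_gn P h hP,
        neg_mul]
      abel
    rw [Ex.ι_eq, Finset.sum_mul]
    simp only [smul_mul_assoc, map_sum, map_smul]
    rw [om_d_csum]
    exact Finset.sum_congr rfl fun a _ => by rw [h1]

theorem lg_mem_LI (hP : (vanI Γ).IsPrime) (x : Ex (Fin k)) : lg P e x ∈ H103.LI Γ :=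
  (lg_range P h hP).2 ⟨x, rfl⟩

omit h in
theorem wt_one_eq (x : Ex (Fin k)) : Ex.wt (fun _ => (1 : ℂ)) x = Ex.nb x := by
  rw [Ex.wt_apply, Ex.nb_apply]
  exact Finset.sum_congr rfl fun a _ => one_smul _ _

omit h in
/-- The degrees. -/
theorem cmp_lg (x : Ex (Fin k)) : ∀ p : ℕ,
    H987.cmp (Of Γ) p (lg P e (Ex.wt (fun _ => 1) x)) = (p : ℂ) • H987.cmp (Of Γ) p (lg P e x) := by
  induction x using Ex.ind with
  | h1 =>
    intro p
    rw [Ex.wt_one, map_zero, map_zero, map_one]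
    have h3 := cmp_of_mem (q := p) (Om.alg_mem (k := ℂ) (1 : Of Γ))
    rw [map_one] at h3
    rw [h3]
    split_ifs with hp
    · rw [hp, Nat.cast_zero, zero_smul]
    · rw [smul_zero]
  | hs c x hx =>
    intro p
    have e1 : Ex.wt (fun _ => (1 : ℂ)) (c • x) = c • Ex.wt (fun _ => 1) x := map_smul _ _ _
    rw [e1, map_smul (lg P e), map_smul (lg P e), cmp_csmul, cmp_csmul, hx, smul_comm]
  | ha x y hx hy =>
    intro p
    rw [map_add, map_add, map_add, map_add, map_add, hx, hy, smul_add]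
  | hm v x hx =>
    intro p
    obtain ⟨μ, hμ⟩ := exists_lg_ι P (e := e) v
    rw [wt_one_eq, Ex.nb_ι_mul, ← wt_one_eq, map_add, map_mul, map_mul, hμ]
    rcases p with _ | p
    · rw [map_add, cmp_zero, cmp_zero, add_zero, smul_zero]
    · rw [add_comm p 1, map_add, cmp_succ, cmp_succ, hx p, mul_smul_comm]
      push_cast
      rw [add_smul, one_smul]

omit h in
theorem lg_deg {m : ℤ} {x : Ex (Fin k)} (hx : x ∈ Ex.gr (α := Fin k) m) : lg P e x ∈ omg (Of Γ) m := by
  rw [Ex.mem_gr] at hx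
  have h2 : ∀ p : ℕ, (p : ℤ) ≠ m → H987.cmp (Of Γ) p (lg P e x) = 0 := by
    intro p hp
    have h3 := cmp_lg P (e := e) x p
    rw [hx, map_smul, cmp_csmul] at h3
    have h4 : ((m : ℂ) - (p : ℂ)) • H987.cmp (Of Γ) p (lg P e x) = 0 := by
      rw [sub_smul, h3, sub_self]
    rcases smul_eq_zero.1 h4 with h5 | h5
    · exfalso
      apply hp
      have h6 : (m : ℂ) = ((p : ℤ) : ℂ) := by
        rw [Int.cast_natCast]
        exact sub_eq_zero.1 h5
      exact (Int.cast_injective h6).symm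
    · exact h5
  by_cases hm : 0 ≤ m
  · obtain ⟨p, rfl⟩ := Int.eq_ofNat_of_zero_le hm
    have h3 : lg P e x = H987.cmp (Of Γ) p (lg P e x) := by
      apply eq_of_cmp
      intro q
      rw [cmp_of_mem (cmp_mem p (lg P e x))]
      split_ifs with h
      · rw [h]
      · exact h2 q (by exact_mod_cast h)
    rw [h3]
    exact mem_omg_nat.2 (cmp_mem p _)
  · have h3 : lg P e x = 0 := by
      apply eq_of_cmp
      intro q
      rw [h2 q (by omega), map_zero]
    rw [h3]
    exact Submodule.zero_mem _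

theorem lg_deg' (hP : (vanI Γ).IsPrime) {m : ℤ} {x : Ex (Fin k)} (hx : lg P e x ∈ omg (Of Γ) m) :
    x ∈ Ex.gr (α := Fin k) m := by
  rw [Ex.mem_gr]
  apply lg_injective P h hP
  apply eq_of_cmp
  intro q
  rw [cmp_lg, map_smul, cmp_csmul]
  rcases hx with hx | ⟨p, rfl, hx⟩
  · rw [hx, map_zero, smul_zero, smul_zero]
  · rw [cmp_of_mem hx]
    split_ifs with hq
    · rw [hq, Int.cast_natCast]
    · rw [smul_zero, smul_zero]

include P in
/-- The square of the differential of `Λ(g*)`. -/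
theorem dLam_dLam (hP : (vanI Γ).IsPrime) (x : Ex (Fin k)) :
    dLam (H166.stc e) (dLam (H166.stc e) x) = 0 := by
  apply lg_injective P h hP
  rw [← d_lg P h hP, ← d_lg P h hP, Om.d_d, map_zero]

/-- The morphism from `Λ(g*)` to the de Rham complex of the group. -/
def lgHom (hP : (vanI Γ).IsPrime)
    (hL : ∀ x : Ex (Fin k), dLam (H166.stc e) (dLam (H166.stc e) x) = 0) :
    GD.Hom (LG (H166.stc e) hL) (OmGD (Of Γ)) where
  f := (lg P e).toLinearMap
  comm x := (d_lg P h hP x).symm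
  deg _ _ hx := lg_deg P hx

theorem lgHom_apply (hP : (vanI Γ).IsPrime)
    (hL : ∀ x : Ex (Fin k), dLam (H166.stc e) (dLam (H166.stc e) x) = 0) (x : Ex (Fin k)) :
    (lgHom P h hP hL).f x = lg P e x := rfl

/-- **`Λ(g*)` computes the cohomology of the group.** -/
theorem qis_lgHom (hP : (vanI Γ).IsPrime) (hd : Dag Γ)
    (hL : ∀ x : Ex (Fin k), dLam (H166.stc e) (dLam (H166.stc e) x) = 0) :
    GD.Qis (lgHom P h hP hL) := by
  refine qis_left_inv hP hd _ (lg_injective P h hP) (lg_mem_LI P h hP) ?_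
  intro m x hx hx'
  obtain ⟨y, rfl⟩ := (lg_range P h hP).1 hx
  exact ⟨y, lg_deg' P h hP hx', rfl⟩

end Map

end

end Vale.Agent.P286.H295
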