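import Mathlib

/-!
# Smooth complex algebras are reduced and have enough complex points
-/

namespace Vale.Agent.P286.H295

open TensorProduct Polynomial

noncomputable section

/-- The integral closure of `k` in `k[X]` is `k`. -/
theorem intClosure_poly (k : Type) [Field k] (p : k[X]) (hp : IsIntegral k p) :
    ∃ c : k, p = C c := by
  obtain ⟨q, hq, he⟩ := hp
  have h : (q.map (algebraMap k k[X])).IsRoot p := by
    rw [Polynomial.IsRoot, Polynomial.eval_map]
    exact he
  by_contra hcon
  push Not at hcon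
  have hd : 0 < p.natDegree := by
    by_contra h0
    have h1 : p.natDegree = 0 := by omega
    exact hcon _ (Polynomial.eq_C_of_natDegree_eq_zero h1)
  have h2 : q.comp p = 0 := by
    rw [Polynomial.comp, ← he]
    rfl
  have h3 := Polynomial.natDegree_comp (p := q) (q := p)
  rw [h2, Polynomial.natDegree_zero] at h3
  have h4 : q.natDegree = 0 := by
    rcases Nat.mul_eq_zero.1 h3.symm with h | h
    · exact h
    · omega
  have h5 := hq.natDegree_eq_zero.1 h4
  rw [h5, Polynomial.one_comp] at h2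
  exact one_ne_zero h2

/-- A smooth algebra over a field is reduced. -/
theorem isReduced_of_smooth (k A : Type) [Field k] [CommRing A] [Algebra k A]
    [Algebra.Smooth k A] : IsReduced A := by
  refine ⟨fun x hx => ?_⟩
  obtain ⟨n, hn⟩ := hx
  have hb := TensorProduct.toIntegralClosure_bijective_of_smooth (R := k) (S := A) (B := k[X])
  have hi : IsIntegral A (x ⊗ₜ[k] (X : k[X])) := by
    refine ⟨Polynomial.X ^ (n + 1), Polynomial.monic_X_pow _, ?_⟩
    rw [Polynomial.eval₂_X_pow, Algebra.TensorProduct.tmul_pow, pow_succ, hn, zero_mul,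
      TensorProduct.zero_tmul]
  obtain ⟨y, hy⟩ := hb.2 ⟨_, hi⟩
  have hy' : Algebra.TensorProduct.map (AlgHom.id A A) (integralClosure k k[X]).val y =
      x ⊗ₜ[k] (X : k[X]) := congrArg Subtype.val hy
  -- all elements of the image are of the form `a ⊗ 1`
  have key : ∀ y : A ⊗[k] integralClosure k k[X], ∃ a : A,
      Algebra.TensorProduct.map (AlgHom.id A A) (integralClosure k k[X]).val y = a ⊗ₜ[k] 1 := by
    intro y
    induction y with
    | zero => exact ⟨0, by rw [map_zero, TensorProduct.zero_tmul]⟩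
    | add u v hu hv =>
      obtain ⟨a, ha⟩ := hu
      obtain ⟨b, hb⟩ := hv
      exact ⟨a + b, by rw [map_add, ha, hb, TensorProduct.add_tmul]⟩
    | tmul a p =>
      obtain ⟨c, hc⟩ := intClosure_poly k p.1 p.2
      refine ⟨c • a, ?_⟩
      rw [Algebra.TensorProduct.map_tmul]
      change a ⊗ₜ[k] p.1 = _
      rw [hc, TensorProduct.smul_tmul]
      congr 1
      rw [← Polynomial.algebraMap_eq, Algebra.algebraMap_eq_smul_one]
  obtain ⟨a, ha⟩ := key y
  rw [hy'] at ha
  -- compare the coefficients of `X`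
  let f : k[X] →ₗ[k] k := Polynomial.lcoeff k 1
  have h1 := congrArg (TensorProduct.rid k A) (congrArg (LinearMap.lTensor A f) ha)
  simp only [LinearMap.lTensor_tmul, TensorProduct.rid_tmul, f, Polynomial.lcoeff_apply,
    Polynomial.coeff_X_one, one_smul] at h1
  rw [h1]
  simp [Polynomial.coeff_one]

/-- A maximal ideal of a finitely generated complex algebra is the kernel of a homomorphism to the
complex numbers. -/
theorem exists_hom_of_isMaximal {A : Type} [CommRing A] [Algebra ℂ A] [Algebra.FiniteType ℂ A]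
    (m : Ideal A) (hm : m.IsMaximal) : ∃ f : A →ₐ[ℂ] ℂ, ∀ a, f a = 0 ↔ a ∈ m := by
  let _ : Field (A ⧸ m) := Ideal.Quotient.field m
  have : Algebra.FiniteType ℂ (A ⧸ m) := inferInstance
  have h1 : Module.Finite ℂ (A ⧸ m) := finite_of_finite_type_of_isJacobsonRing ℂ (A ⧸ m)
  have h2 : Algebra.IsIntegral ℂ (A ⧸ m) := inferInstance
  have h3 := IsAlgClosed.algebraMap_bijective_of_isIntegral (k := ℂ) (K := A ⧸ m)
  let e : ℂ ≃ₐ[ℂ] (A ⧸ m) := AlgEquiv.ofBijective (Algebra.ofId ℂ (A ⧸ m)) h3
  refine ⟨(e.symm : (A ⧸ m) →ₐ[ℂ] ℂ).comp (Ideal.Quotient.mkₐ ℂ m), fun a => ?_⟩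
  change e.symm (Ideal.Quotient.mk m a) = 0 ↔ _
  rw [map_eq_zero_iff _ e.symm.injective, Ideal.Quotient.eq_zero_iff_mem]

/-- A nonzero element of a reduced finitely generated complex algebra has a nonzero value. -/
theorem exists_hom_ne {A : Type} [CommRing A] [Algebra ℂ A] [Algebra.FiniteType ℂ A]
    [IsReduced A] {a : A} (ha : a ≠ 0) : ∃ f : A →ₐ[ℂ] ℂ, f a ≠ 0 := by
  have hJ : IsJacobsonRing A := isJacobsonRing_of_finiteType (A := ℂ)
  by_contra hcon
  push Not at hcon
  apply ha
  have h1 : a ∈ (⊥ : Ideal A).jacobson := by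
    rw [Ideal.jacobson, Submodule.mem_sInf]
    rintro m ⟨-, hm⟩
    obtain ⟨f, hf⟩ := exists_hom_of_isMaximal m hm
    exact (hf a).1 (hcon f)
  rw [hJ.out Ideal.isRadical_bot] at h1
  exact h1

end

end Vale.Agent.P286.H295
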