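import Vale.Agent.P286.H295.Smo
import Vale.Agent.P286.H295.Red

/-!
# Points of the group of a bilinear form
-/

namespace Vale.Agent.P286.H295

open Matrix Vale.Agent.P286.Gen

noncomputable section

variable {N : ℕ} {A B : Type} [CommRing A] [Algebra ℂ A] [CommRing B] [Algebra ℂ B] {Γ : Gps N}

/-- Over a reduced finitely generated algebra, the equations can be tested at complex points. -/
theorem isPt_of_map [Algebra.FiniteType ℂ A] [IsReduced A] {x : Mt N A}
    (h : ∀ f : A →ₐ[ℂ] ℂ, IsPt Γ (x.map f)) : IsPt Γ x := by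
  intro P hP
  by_contra hne
  obtain ⟨f, hf⟩ := exists_hom_ne hne
  exact hf ((map_ev f x P).trans (h f P hP))

/-- Elements of `Γ` are points. -/
theorem isPt_of_mem {γ : SpecialLinearGroup (Fin N) ℂ} (h : γ ∈ Γ) : IsPt Γ γ.1 :=
  fun _ hP => hP γ h

section Form

/-- `Γ` is the group of the matrices of determinant one preserving the form `F`. -/
def IsForm (Γ : Gps N) (F : Mt N ℂ) : Prop :=
  ∀ γ : SpecialLinearGroup (Fin N) ℂ, γ ∈ Γ ↔ γ.1.transpose * F * γ.1 = F

variable {F : Mt N ℂ}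

theorem ev_gen (x : Mt N A) : (gen N ℂ).map (ev x) = x := by
  ext i j
  exact MvPolynomial.aeval_X _ _

theorem map_transpose' (x : Mt N A) (f : A →ₐ[ℂ] B) : x.transpose.map f = (x.map f).transpose := rfl

theorem IsForm.eq_of_isPt (hΓ : IsForm Γ F) {x : Mt N A} (hx : IsPt Γ x) :
    x.transpose * cm A F * x = cm A F := by
  have key : ∀ (B : Type) [CommRing B] [Algebra ℂ B] (y : Mt N B),
      ((gen N ℂ).transpose * cm (Pl N) F * gen N ℂ).map (ev y) = y.transpose * cm B F * y := by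
    intro B _ _ y
    rw [mt_map_mul, mt_map_mul, map_transpose', ev_gen, map_cm]
  ext i j
  have h1 : ((gen N ℂ).transpose * cm (Pl N) F * gen N ℂ - cm (Pl N) F) i j ∈ van Γ := by
    intro γ hγ
    rw [Matrix.sub_apply, map_sub]
    have h2 := congrFun (congrFun (key ℂ γ.1) i) j
    rw [Matrix.map_apply] at h2
    have h3 : cm ℂ F = F := by ext i j; rfl
    rw [h2, h3, (hΓ γ).1 hγ]
    have h4 : ev γ.1 (cm (Pl N) F i j) = F i j := by
      change ev γ.1 (algebraMap ℂ (Pl N) (F i j)) = _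
      rw [AlgHom.commutes]
      rfl
    rw [h4, sub_self]
  have h2 := hx _ h1
  rw [Matrix.sub_apply, map_sub, sub_eq_zero] at h2
  have h3 := congrFun (congrFun (key A x) i) j
  rw [Matrix.map_apply] at h3
  rw [← h3, h2]
  exact (ev x).commutes _

theorem IsForm.isPt_cplx (hΓ : IsForm Γ F) {x : Mt N ℂ} (h1 : x.det = 1)
    (h2 : x.transpose * F * x = F) : IsPt Γ x :=
  isPt_of_mem (γ := ⟨x, h1⟩) ((hΓ ⟨x, h1⟩).2 h2)

theorem IsForm.isPt_of_eq (hΓ : IsForm Γ F) [Algebra.FiniteType ℂ A] [IsReduced A] {x : Mt N A}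
    (h1 : x.det = 1) (h2 : x.transpose * cm A F * x = cm A F) : IsPt Γ x := by
  apply isPt_of_map
  intro f
  apply hΓ.isPt_cplx
  · have h := AlgHom.map_det f x
    rw [h1, map_one] at h
    exact h.symm
  · have h := congrArg (fun y : Mt N A => y.map f) h2
    simp only [mt_map_mul, map_transpose', map_cm] at h
    have h3 : cm ℂ F = F := by ext i j; rfl
    rwa [h3] at h

/-- **The points of the group of a form over a reduced finitely generated algebra.** -/
theorem IsForm.isPt_iff (hΓ : IsForm Γ F) [Algebra.FiniteType ℂ A] [IsReduced A] {x : Mt N A} :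
    IsPt Γ x ↔ x.det = 1 ∧ x.transpose * cm A F * x = cm A F :=
  ⟨fun h => ⟨det_pt h, hΓ.eq_of_isPt h⟩, fun h => hΓ.isPt_of_eq h.1 h.2⟩

theorem map_one' (f : A →ₐ[ℂ] B) : (1 : Mt N A).map f = 1 := Matrix.map_one _ (map_zero f) (map_one f)

/-- The matrix `1 + t Y`. -/
def lin (t : A) (Y : Mt N ℂ) : Mt N A := 1 + t • cm A Y

theorem lin_map (f : A →ₐ[ℂ] B) (t : A) (Y : Mt N ℂ) : (lin t Y).map f = lin (f t) Y := by
  ext i j
  simp only [lin, Matrix.map_apply, Matrix.add_apply, Matrix.smul_apply, smul_eq_mul, map_add,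
    map_mul]
  congr 1
  · exact congrFun (congrFun (map_one' (N := N) f) i) j
  · congr 1
    exact congrFun (congrFun (map_cm Y f) i) j

theorem lin_eps (Y : Mt N ℂ) : lin (DualNumber.eps : DualNumber ℂ) Y = du 1 Y := by
  ext i j
  · simp [lin, du, cm, Matrix.one_apply, TrivSqZeroExt.algebraMap_eq_inl]
    split_ifs <;> simp
  · simp [lin, du, cm, Matrix.one_apply, TrivSqZeroExt.algebraMap_eq_inl]
    split_ifs <;> simp

theorem lin_comm (t : A) (Y : Mt N ℂ) : lin t Y * lin (-t) Y = lin (-t) Y * lin t Y := by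
  simp only [lin, add_mul, mul_add, one_mul, mul_one, smul_mul_assoc, mul_smul_comm, smul_add,
    neg_smul, smul_neg, neg_mul, mul_neg]
  abel

theorem lin_transpose {Y : Mt N ℂ} (hY : Y.transpose * F + F * Y = 0) (t : A) :
    (lin t Y).transpose * cm A F = cm A F * lin (-t) Y := by
  have h : (cm A Y).transpose * cm A F = - (cm A F * cm A Y) := by
    rw [eq_neg_iff_add_eq_zero]
    have h1 := congrArg (fun y => cm A y) hY
    have h2 : cm A (Y.transpose * F + F * Y) = (cm A Y).transpose * cm A F + cm A F * cm A Y := by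
      rw [← cm_mul, show (cm A Y).transpose = cm A Y.transpose from rfl, ← cm_mul]
      ext i j
      exact map_add (algebraMap ℂ A) _ _
    have h3 : cm A (0 : Mt N ℂ) = 0 := by
      ext i j
      exact map_zero (algebraMap ℂ A)
    simp only [h2, h3] at h1
    exact h1
  simp only [lin, Matrix.transpose_add, Matrix.transpose_one, Matrix.transpose_smul, add_mul,
    one_mul, mul_add, mul_one, smul_mul_assoc, h, neg_smul, smul_neg, mul_neg, Matrix.mul_smul]

theorem det_lin {Y : Mt N ℂ} (hY : Y.transpose * F + F * Y = 0) (hF : IsUnit F.det) (t : A) :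
    (lin t Y).det = (lin (-t) Y).det := by
  have h := congrArg Matrix.det (lin_transpose hY t)
  rw [Matrix.det_mul, Matrix.det_mul, Matrix.det_transpose, mul_comm] at h
  have h2 : IsUnit (cm A F).det := by
    have h3 : (cm A F).det = algebraMap ℂ A F.det := (RingHom.map_det _ _).symm
    rw [h3]
    exact hF.map _
  exact h2.mul_left_cancel h

/-- The Cayley transform. -/
theorem cayley {Y : Mt N ℂ} (hY : Y.transpose * F + F * Y = 0) (hF : IsUnit F.det) {t : A}
    (hu : IsUnit (lin (-t) Y).det) :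
    (lin t Y * (lin (-t) Y)⁻¹).det = 1 ∧
    (lin t Y * (lin (-t) Y)⁻¹).transpose * cm A F * (lin t Y * (lin (-t) Y)⁻¹) = cm A F := by
  have h1 : lin (-t) Y * (lin (-t) Y)⁻¹ = 1 := Matrix.mul_nonsing_inv _ hu
  constructor
  · have h2 := congrArg Matrix.det h1
    rw [Matrix.det_mul, Matrix.det_one] at h2
    rw [Matrix.det_mul, det_lin hY hF t]
    exact h2
  · have h3 : (lin (-t) Y)⁻¹.transpose * (lin (-t) Y).transpose = 1 := by
      rw [← Matrix.transpose_mul, h1, Matrix.transpose_one]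
    rw [Matrix.transpose_mul]
    calc (lin (-t) Y)⁻¹.transpose * (lin t Y).transpose * cm A F * (lin t Y * (lin (-t) Y)⁻¹)
        = (lin (-t) Y)⁻¹.transpose * ((lin t Y).transpose * cm A F) * lin t Y *
          (lin (-t) Y)⁻¹ := by simp only [Matrix.mul_assoc]
      _ = (lin (-t) Y)⁻¹.transpose * (cm A F * (lin (-t) Y * lin t Y)) * (lin (-t) Y)⁻¹ := by
          rw [lin_transpose hY]
          simp only [Matrix.mul_assoc]
      _ = (lin (-t) Y)⁻¹.transpose * (cm A F * lin t Y) * (lin (-t) Y * (lin (-t) Y)⁻¹) := by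
          rw [← lin_comm]
          simp only [Matrix.mul_assoc]
      _ = (lin (-t) Y)⁻¹.transpose * ((lin (-t) Y).transpose * cm A F) := by
          rw [h1, mul_one, lin_transpose hY, neg_neg]
      _ = cm A F := by rw [← Matrix.mul_assoc, h3, one_mul]

end Form

section Lie

open Polynomial

variable {F : Mt N ℂ}

theorem IsForm.isLi_of_eq (hΓ : IsForm Γ F) (hF : IsUnit F.det) {Y : Mt N ℂ}
    (hY : Y.transpose * F + F * Y = 0) : IsLi Γ Y := by
  let q : ℂ[X] := (lin (-(X : ℂ[X])) Y).det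
  let A := Localization.Away q
  have hq : q ≠ 0 := by
    intro h
    have h1 : Polynomial.aeval (0 : ℂ) q = 1 := by
      have h2 := AlgHom.map_det (Polynomial.aeval (0 : ℂ) : ℂ[X] →ₐ[ℂ] ℂ) (lin (-(X : ℂ[X])) Y)
      rw [AlgHom.mapMatrix_apply, lin_map] at h2
      rw [show q = (lin (-(X : ℂ[X])) Y).det from rfl, h2]
      simp [lin]
    rw [h, map_zero] at h1
    exact zero_ne_one h1
  have hdom : IsDomain A := IsLocalization.isDomain_localization
    (powers_le_nonZeroDivisors_of_noZeroDivisors hq)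
  let ι : ℂ[X] →ₐ[ℂ] A := IsScalarTower.toAlgHom ℂ ℂ[X] A
  have hu : IsUnit (lin (-(ι X)) Y).det := by
    have h2 := AlgHom.map_det ι (lin (-(X : ℂ[X])) Y)
    rw [AlgHom.mapMatrix_apply, lin_map, _root_.map_neg] at h2
    rw [← h2]
    exact IsLocalization.Away.algebraMap_isUnit q
  obtain ⟨h1, h2⟩ := cayley hY hF hu
  have hpt : IsPt Γ (lin (ι X) Y * (lin (-(ι X)) Y)⁻¹) := hΓ.isPt_of_eq h1 h2
  -- the specialization
  let e : ℂ[X] →ₐ[ℂ] DualNumber ℂ := Polynomial.aeval DualNumber.eps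
  have hue : IsUnit (e q) := by
    have h2 := AlgHom.map_det e (lin (-(X : ℂ[X])) Y)
    rw [AlgHom.mapMatrix_apply, lin_map, _root_.map_neg] at h2
    rw [show q = (lin (-(X : ℂ[X])) Y).det from rfl, h2]
    rw [TrivSqZeroExt.isUnit_iff_isUnit_fst]
    have h3 := AlgHom.map_det (TrivSqZeroExt.fstHom ℂ ℂ ℂ) (lin (-(e X)) Y)
    rw [AlgHom.mapMatrix_apply, lin_map] at h3
    change IsUnit (TrivSqZeroExt.fstHom ℂ ℂ ℂ (lin (-(e X)) Y).det)
    rw [h3]
    simp [lin, e]
  let g : A →ₐ[ℂ] DualNumber ℂ := IsLocalization.liftAlgHom (M := Submonoid.powers q) (f := e)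
    (by
      rintro ⟨_, n, rfl⟩
      simp only [map_pow]
      exact hue.pow n)
  have hg : g (ι X) = DualNumber.eps := by
    have h3 : g (ι X) = e X := IsLocalization.lift_eq _ _
    rw [h3]
    exact Polynomial.aeval_X _
  have hg' : g (-(ι X)) = -DualNumber.eps :=
    (_root_.map_neg g (ι X)).trans (congrArg Neg.neg hg)
  have h3 := hpt.map g
  have h4 : (lin (ι X) Y * (lin (-(ι X)) Y)⁻¹).map g = du 1 (Y + Y) := by
    have h5 : (lin (ι X) Y * (lin (-(ι X)) Y)⁻¹).map g * lin (-DualNumber.eps) Y =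
        lin DualNumber.eps Y := by
      have h6 : lin (ι X) Y * (lin (-(ι X)) Y)⁻¹ * lin (-(ι X)) Y = lin (ι X) Y := by
        rw [Matrix.mul_assoc, Matrix.nonsing_inv_mul _ hu, mul_one]
      have h7 := congrArg (fun y : Mt N A => y.map g) h6
      simp only [mt_map_mul, lin_map, hg', hg] at h7
      simp only [mt_map_mul, lin_map, hg]
      exact h7
    have h8 : lin (-DualNumber.eps : DualNumber ℂ) Y = lin DualNumber.eps (-Y) := by
      simp only [lin]
      congr 1
      ext i j <;> simp [cm]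
    rw [h8, lin_eps, lin_eps] at h5
    have h9 := congrArg (fun y => y * du (1 : Mt N ℂ) Y) h5
    simp only [Matrix.mul_assoc, du_mul] at h9
    have h10 : du ((1 : Mt N ℂ) * 1) (1 * Y + -Y * 1) = 1 := by
      rw [one_mul, one_mul, mul_one, add_neg_cancel]
      exact (Matrix.map_one _ (map_zero _) (map_one _)).symm.trans (map_inlA (A := ℂ) 1) |>.symm
    rw [h10, mul_one] at h9
    rw [h9, one_mul, one_mul, mul_one]
  rw [h4] at h3
  have h5 : IsLi Γ (Y + Y) := h3
  have h6 := h5.smul ((1 : ℂ) / 2)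
  have h7 : ((1 : ℂ) / 2) • (Y + Y) = Y := by
    rw [← two_smul ℂ Y, smul_smul]
    norm_num
  rwa [h7] at h6

theorem IsForm.eq_of_isLi (hΓ : IsForm Γ F) {Y : Mt N A} (hY : IsLi Γ Y) :
    Y.transpose * cm A F + cm A F * Y = 0 := by
  have h := hΓ.eq_of_isPt hY
  have h1 : cm (DualNumber A) F = du (cm A F) 0 := by
    rw [← map_inlA, map_cm]
  have h2 : (du (1 : Mt N A) Y).transpose = du 1 Y.transpose := by
    ext i j <;> simp [du, Matrix.one_apply, eq_comm]
  rw [h1, h2, du_mul, du_mul] at h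
  have h3 : ∀ x y x' y' : Mt N A, du x y = du x' y' → y = y' := by
    intro x y x' y' h
    ext i j
    have h4 := congrArg TrivSqZeroExt.snd (congrFun (congrFun h i) j)
    simpa [du] using h4
  have h4 := h3 _ _ _ _ h
  simp only [one_mul, mul_one, mul_zero, zero_add] at h4
  rw [add_comm]
  exact h4

/-- **The Lie algebra of the group of a form.** -/
theorem IsForm.mem_lieAlg (hΓ : IsForm Γ F) (hF : IsUnit F.det) (Y : Mt N ℂ) :
    Y ∈ lieAlg Γ ↔ Y.transpose * F + F * Y = 0 := by
  rw [Gen.mem_lieAlg]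
  refine ⟨fun h => ?_, hΓ.isLi_of_eq hF⟩
  have h1 := hΓ.eq_of_isLi h
  have h3 : cm ℂ F = F := by ext i j; rfl
  rwa [h3] at h1

end Lie

end

end Vale.Agent.P286.H295
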