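import Vale.Agent.P286.H987.Rpn
import Vale.Agent.P286.H166.Cas5
import Vale.Agent.P286.H295.SoG

/-!
# The standard representations of the symplectic and odd orthogonal groups

`RSp n : Rpn (GSp (2 * n)) (Fin n ⊕ Fin n)` and `RSo n : Rpn (GSo (2 * n + 1)) ((Fin n ⊕ Fin n) ⊕ Unit)`
with the isomorphisms of the Lie algebras with the Lie algebras of the data `Dat.sp n`, `Dat.so n`.
-/

namespace Vale.Agent.P286.H295

open Matrix Vale.Agent.P286.Gen Vale.Agent.P286.H987 Vale.Agent.P286.H374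

noncomputable section

section Std

variable {N : ℕ} {Γ : Gps N} {I : Type} [Fintype I] [DecidableEq I]
  {A B : Type} [CommRing A] [Algebra ℂ A] [CommRing B] [Algebra ℂ B]

/-- A constant rectangular matrix. -/
def cq {I J : Type} (A : Type) [CommRing A] [Algebra ℂ A] (P : Matrix I J ℂ) : Matrix I J A :=
  P.map (algebraMap ℂ A)

theorem cq_map {I J : Type} (P : Matrix I J ℂ) (f : A →ₐ[ℂ] B) : (cq A P).map f = cq B P := by
  ext i j
  exact f.commutes _

theorem cq_mul {I J K : Type} [Fintype J] (P : Matrix I J ℂ) (Q : Matrix J K ℂ) :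
    cq A P * cq A Q = cq A (P * Q) := (Matrix.map_mul (f := algebraMap ℂ A)).symm

theorem cq_one {I : Type} [DecidableEq I] : cq A (1 : Matrix I I ℂ) = 1 :=
  Matrix.map_one _ (map_zero _) (map_one _)

/-- The conjugate of the standard representation by a constant matrix. -/
def stdR (Γ : Gps N) (P : Matrix I (Fin N) ℂ) (Q : Matrix (Fin N) I ℂ) (h : P * Q = 1)
    (h' : Q * P = 1) : Rpn Γ I where
  r {A} _ _ :=
    { toFun := fun x => cq A P * mx x * cq A Q
      map_one' := by
        change cq A P * (1 : Mt N A) * cq A Q = 1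
        rw [Matrix.mul_one, cq_mul, h, cq_one]
      map_mul' := fun x y => by
        change cq A P * (mx x * mx y) * cq A Q = _
        have h1 : cq A Q * cq A P = 1 := by rw [cq_mul, h', cq_one]
        calc cq A P * (mx x * mx y) * cq A Q = cq A P * mx x * (1 * mx y) * cq A Q := by
              rw [Matrix.one_mul]
              simp only [Matrix.mul_assoc]
          _ = cq A P * mx x * (cq A Q * cq A P * mx y) * cq A Q := by rw [h1]
          _ = _ := by simp only [Matrix.mul_assoc] }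
  nat {A B} _ _ _ _ f x := by
    change cq B P * (mx x).map f * cq B Q = (cq A P * mx x * cq A Q).map f
    have h1 : ∀ {I J K : Type} [Fintype J] (U : Matrix I J A) (V : Matrix J K A),
        (U * V).map f = U.map f * V.map f := fun U V => Matrix.map_mul (f := (f : A →+* B))
    rw [h1, h1, cq_map, cq_map]

variable {P : Matrix I (Fin N) ℂ} {Q : Matrix (Fin N) I ℂ} {h : P * Q = 1} {h' : Q * P = 1}

theorem stdR_r (x : Gr Γ A) : (stdR Γ P Q h h').r x = cq A P * mx x * cq A Q := rfl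

/-- The matrix `V + ε W`. -/
def dR {I J : Type} (V W : Matrix I J A) : Matrix I J (DualNumber A) :=
  fun i j => TrivSqZeroExt.inl (V i j) + TrivSqZeroExt.inr (W i j)

theorem cq_dR {I J K : Type} [Fintype J] (U : Matrix I J ℂ) (V W : Matrix J K A) :
    cq (DualNumber A) U * dR V W = dR (cq A U * V) (cq A U * W) := by
  have h8 : ∀ c : ℂ, algebraMap ℂ (DualNumber A) c = TrivSqZeroExt.inl (algebraMap ℂ A c) :=
    fun _ => rfl
  ext i j
  · simp [Matrix.mul_apply, cq, dR, h8, TrivSqZeroExt.fst_sum]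
  · simp [Matrix.mul_apply, cq, dR, h8, TrivSqZeroExt.snd_sum]

theorem dR_cq {I J K : Type} [Fintype J] (U : Matrix J K ℂ) (V W : Matrix I J A) :
    dR V W * cq (DualNumber A) U = dR (V * cq A U) (W * cq A U) := by
  have h8 : ∀ c : ℂ, algebraMap ℂ (DualNumber A) c = TrivSqZeroExt.inl (algebraMap ℂ A c) :=
    fun _ => rfl
  ext i j
  · simp [Matrix.mul_apply, cq, dR, h8, TrivSqZeroExt.fst_sum]
  · simp [Matrix.mul_apply, cq, dR, h8, TrivSqZeroExt.snd_sum, mul_comm]

/-- The differential. -/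
theorem stdR_dr {X : Mt N A} (hX : IsLi Γ X) :
    (stdR Γ P Q h h').dr X = cq A P * X * cq A Q := by
  have h1 := (stdR Γ P Q h h').r_eps hX
  rw [stdR_r, Rpn.mx_eps] at h1
  have h2 : cq (DualNumber A) P * du 1 X * cq (DualNumber A) Q = dI 1 (cq A P * X * cq A Q) := by
    have e3 : du (1 : Mt N A) X = dR 1 X := rfl
    rw [e3, cq_dR, dR_cq, Matrix.mul_one, cq_mul, h, cq_one]
    rfl
  rw [h2] at h1
  exact (dI_snd h1).symm

theorem cq_complex {I J : Type} (P : Matrix I J ℂ) : cq ℂ P = P := by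
  ext i j
  rfl

theorem stdR_drL (X : lieAlg Γ) : (stdR Γ P Q h h').drL X = P * X.1 * Q := by
  rw [Rpn.drL_apply, stdR_dr ((mem_lieAlg _).1 X.2), cq_complex, cq_complex]

/-- The determinant. -/
theorem stdR_det (x : Gr Γ A) : ((stdR Γ P Q h h').r x).det = 1 := by
  rw [stdR_r, Matrix.det_conj_of_mul_eq_one (by rw [cq_mul, h, cq_one]) (by rw [cq_mul, h', cq_one])]
  exact det_pt (isPt_mx x)

end Std

section Form

variable {I : Type} [Fintype I] [DecidableEq I]

/-- The form of a datum. -/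
def fJ (S : Dat I) : Matrix I I ℂ := fun i j => if j = S.p i then S.e i else 0

theorem fJ_mul (S : Dat I) (X : Matrix I I ℂ) (i j : I) :
    (fJ S * X) i j = S.e i * X (S.p i) j := by
  rw [Matrix.mul_apply, Finset.sum_eq_single (S.p i)]
  · rw [fJ, if_pos rfl]
  · intro k _ hk
    rw [fJ, if_neg hk, zero_mul]
  · intro h
    exact absurd (Finset.mem_univ _) h

theorem mul_fJ (S : Dat I) (X : Matrix I I ℂ) (i j : I) :
    (X * fJ S) i j = X i (S.p j) * S.e (S.p j) := by
  rw [Matrix.mul_apply, Finset.sum_eq_single (S.p j)]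
  · rw [fJ, if_pos (S.pp j).symm]
  · intro k _ hk
    rw [fJ, if_neg, mul_zero]
    rintro rfl
    exact hk (S.pp k).symm
  · intro h
    exact absurd (Finset.mem_univ _) h

/-- The Lie algebra of a datum is the Lie algebra of its form. -/
theorem mem_iff_fJ (S : Dat I) (X : Matrix I I ℂ) :
    S.Mem X ↔ X.transpose * fJ S + fJ S * X = 0 := by
  have key : ∀ i j, (X.transpose * fJ S + fJ S * X) i j =
      X (S.p j) i * S.e (S.p j) + S.e i * X (S.p i) j := by
    intro i j
    rw [Matrix.add_apply, mul_fJ, fJ_mul, Matrix.transpose_apply]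
  constructor
  · intro h
    ext i j
    rw [key, Matrix.zero_apply, h (S.p i) j, S.pp]
    have h1 := S.ee i
    have h2 := S.ek j
    have h3 := S.ek i
    rw [h2, h3]
    linear_combination (-(S.k * S.e j * X (S.p j) i)) * h1
  · intro h i j
    have h1 := congrFun (congrFun h (S.p i)) j
    rw [key, Matrix.zero_apply, S.pp] at h1
    have h2 := S.ek j
    have h3 := S.ek i
    have h4 := S.kk' i
    have h5 := S.ee i
    rw [h2, h3] at h1
    linear_combination (S.k * S.e i) * h1 - (X i j * S.k * S.k) * h5 - X i j * h4 -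
      (S.e i * S.e j * X (S.p j) (S.p i)) * h4

variable {N : ℕ} {Γ : Gps N} {F : Mt N ℂ} {S : Dat I}
  {P : Matrix I (Fin N) ℂ} {Q : Matrix (Fin N) I ℂ}

theorem conj_mem (hΓ : IsForm Γ F) (hF : IsUnit F.det) (h : P * Q = 1)
    (hJ : P.transpose * fJ S * P = F) {X : Mt N ℂ} (hX : X ∈ lieAlg Γ) :
    S.Mem (P * X * Q) := by
  rw [mem_iff_fJ]
  have h1 := (hΓ.mem_lieAlg hF X).1 hX
  have h2 : Q.transpose * P.transpose = 1 := by rw [← Matrix.transpose_mul, h, Matrix.transpose_one]
  have h3 : Q.transpose * (X.transpose * F + F * X) * Q =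
      (P * X * Q).transpose * fJ S + fJ S * (P * X * Q) := by
    rw [← hJ, Matrix.transpose_mul, Matrix.transpose_mul, Matrix.mul_add, Matrix.add_mul]
    congr 1
    · calc Q.transpose * (X.transpose * (P.transpose * fJ S * P)) * Q =
          Q.transpose * (X.transpose * P.transpose) * fJ S * (P * Q) := by
            simp only [Matrix.mul_assoc]
        _ = _ := by rw [h, Matrix.mul_one]
    · calc Q.transpose * (P.transpose * fJ S * P * X) * Q =
          (Q.transpose * P.transpose) * fJ S * (P * X * Q) := by simp only [Matrix.mul_assoc]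
        _ = _ := by rw [h2, Matrix.one_mul]
  rw [← h3, h1, Matrix.mul_zero, Matrix.zero_mul]

theorem conj_mem' (hΓ : IsForm Γ F) (hF : IsUnit F.det) (h' : P * Q = 1)
    (hJ : P.transpose * fJ S * P = F) {X : Matrix I I ℂ} (hX : S.Mem X) :
    Q * X * P ∈ lieAlg Γ := by
  rw [hΓ.mem_lieAlg hF]
  rw [mem_iff_fJ] at hX
  have h2 : Q.transpose * P.transpose = 1 := by
    rw [← Matrix.transpose_mul, h', Matrix.transpose_one]
  have h3 : P.transpose * (X.transpose * fJ S + fJ S * X) * P =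
      (Q * X * P).transpose * F + F * (Q * X * P) := by
    rw [← hJ, Matrix.transpose_mul, Matrix.transpose_mul, Matrix.mul_add, Matrix.add_mul]
    congr 1
    · calc P.transpose * (X.transpose * fJ S) * P =
          P.transpose * X.transpose * (1 : Matrix I I ℂ) * (fJ S * P) := by
            rw [Matrix.mul_one]
            simp only [Matrix.mul_assoc]
        _ = P.transpose * X.transpose * (Q.transpose * P.transpose) * (fJ S * P) := by rw [h2]
        _ = _ := by simp only [Matrix.mul_assoc]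
    · calc P.transpose * (fJ S * X) * P =
          P.transpose * fJ S * (1 : Matrix I I ℂ) * (X * P) := by
            rw [Matrix.mul_one]
            simp only [Matrix.mul_assoc]
        _ = P.transpose * fJ S * (P * Q) * (X * P) := by rw [h']
        _ = _ := by simp only [Matrix.mul_assoc]
  rw [← h3, hX, Matrix.mul_zero, Matrix.zero_mul]

/-- The isomorphism of the Lie algebras. -/
def conjE (hΓ : IsForm Γ F) (hF : IsUnit F.det) (h : P * Q = 1) (h' : Q * P = 1)
    (hJ : P.transpose * fJ S * P = F) : lieAlg Γ ≃ₗ[ℂ] H166.lieS S where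
  toFun X := ⟨P * X.1 * Q, conj_mem hΓ hF h hJ X.2⟩
  invFun Y := ⟨Q * Y.1 * P, conj_mem' hΓ hF h hJ Y.2⟩
  map_add' X Y := by
    apply Subtype.ext
    change P * (X.1 + Y.1) * Q = P * X.1 * Q + P * Y.1 * Q
    rw [Matrix.mul_add, Matrix.add_mul]
  map_smul' c X := by
    apply Subtype.ext
    change P * (c • X.1) * Q = c • (P * X.1 * Q)
    rw [Matrix.mul_smul, Matrix.smul_mul]
  left_inv X := by
    apply Subtype.ext
    change Q * (P * X.1 * Q) * P = X.1
    calc Q * (P * X.1 * Q) * P = (Q * P) * X.1 * (Q * P) := by simp only [Matrix.mul_assoc]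
      _ = X.1 := by rw [h', Matrix.one_mul, Matrix.mul_one]
  right_inv Y := by
    apply Subtype.ext
    change P * (Q * Y.1 * P) * Q = Y.1
    calc P * (Q * Y.1 * P) * Q = (P * Q) * Y.1 * (P * Q) := by simp only [Matrix.mul_assoc]
      _ = Y.1 := by rw [h, Matrix.one_mul, Matrix.mul_one]

end Form

section Sp

/-- The indices. -/
def eSp (n : ℕ) : Fin n ⊕ Fin n → Fin (2 * n) :=
  Sum.elim (fun a => ⟨a, by omega⟩) (fun a => ⟨2 * n - 1 - a, by omega⟩)

def eSp' (n : ℕ) (x : Fin (2 * n)) : Fin n ⊕ Fin n :=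
  if h : (x : ℕ) < n then Sum.inl ⟨x, h⟩ else Sum.inr ⟨2 * n - 1 - x, by omega⟩

/-- The indices. -/
def eqSp (n : ℕ) : Fin n ⊕ Fin n ≃ Fin (2 * n) where
  toFun := eSp n
  invFun := eSp' n
  left_inv i := by
    rcases i with a | a
    · exact dif_pos a.2
    · have h : ¬ (2 * n - 1 - (a : ℕ)) < n := by omega
      refine (dif_neg h).trans ?_
      congr 1
      apply Fin.ext
      change 2 * n - 1 - (2 * n - 1 - (a : ℕ)) = (a : ℕ)
      omega
  right_inv x := by
    by_cases h : (x : ℕ) < n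
    · simp only [eSp, eSp', h, dite_true, Sum.elim_inl]
    · simp only [eSp, eSp', h, dite_false, Sum.elim_inr]
      apply Fin.ext
      simp only
      omega

/-- The permutation matrix. -/
def pSp (n : ℕ) : Matrix (Fin n ⊕ Fin n) (Fin (2 * n)) ℂ :=
  (1 : Matrix (Fin n ⊕ Fin n) (Fin n ⊕ Fin n) ℂ).submatrix id (eqSp n).symm

/-- The inverse permutation matrix. -/
def qSp (n : ℕ) : Matrix (Fin (2 * n)) (Fin n ⊕ Fin n) ℂ :=
  (1 : Matrix (Fin n ⊕ Fin n) (Fin n ⊕ Fin n) ℂ).submatrix (eqSp n).symm id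

theorem pq_Sp (n : ℕ) : pSp n * qSp n = 1 := by
  unfold pSp qSp
  rw [Matrix.submatrix_mul_equiv, Matrix.one_mul]
  rfl

theorem qp_Sp (n : ℕ) : qSp n * pSp n = 1 := by
  unfold pSp qSp
  rw [← Matrix.submatrix_mul (1 : Matrix (Fin n ⊕ Fin n) (Fin n ⊕ Fin n) ℂ) 1 (eqSp n).symm id
    (eqSp n).symm Function.bijective_id, Matrix.one_mul, Matrix.submatrix_one_equiv]

theorem form_Sp (n : ℕ) : (pSp n).transpose * fJ (Dat.sp n) * pSp n = Sp.fm (2 * n) ℂ := by
  have h1 : (pSp n).transpose * fJ (Dat.sp n) * pSp n =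
      (fJ (Dat.sp n)).submatrix (eqSp n).symm (eqSp n).symm := by
    unfold pSp
    rw [Matrix.transpose_submatrix, Matrix.transpose_one]
    have h2 : (fJ (Dat.sp n)) = (fJ (Dat.sp n)).submatrix id id := rfl
    conv_lhs => rw [h2]
    rw [← Matrix.submatrix_mul (1 : Matrix (Fin n ⊕ Fin n) (Fin n ⊕ Fin n) ℂ) (fJ (Dat.sp n))
      (eqSp n).symm id id Function.bijective_id, Matrix.one_mul,
      ← Matrix.submatrix_mul (fJ (Dat.sp n)) 1 (eqSp n).symm id
      (eqSp n).symm Function.bijective_id, Matrix.mul_one]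
  rw [h1]
  ext x y
  obtain ⟨i, rfl⟩ := (eqSp n).surjective x
  obtain ⟨j, rfl⟩ := (eqSp n).surjective y
  rw [Matrix.submatrix_apply, Equiv.symm_apply_apply, Equiv.symm_apply_apply, Sp.fm,
    Matrix.of_apply, fJ]
  have hn : 2 * n / 2 = n := by omega
  rw [hn]
  have h3 : (eqSp n j = (eqSp n i).rev) ↔ j = (Dat.sp n).p i := by
    rw [← (eqSp n).injective.eq_iff]
    have h4 : eqSp n ((Dat.sp n).p i) = (eqSp n i).rev := by
      rcases i with a | a
      · apply Fin.ext
        rw [Fin.val_rev]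
        change 2 * n - 1 - (a : ℕ) = 2 * n - ((a : ℕ) + 1)
        omega
      · apply Fin.ext
        rw [Fin.val_rev]
        change (a : ℕ) = 2 * n - ((2 * n - 1 - (a : ℕ)) + 1)
        omega
    rw [h4]
  by_cases h : j = (Dat.sp n).p i
  · rw [if_pos h, if_pos (h3.2 h)]
    rcases i with a | a
    · have h5 : ((eqSp n (Sum.inl a) : Fin (2 * n)) : ℕ) < n := a.2
      rw [if_pos h5]
      rfl
    · have h5 : ¬ ((eqSp n (Sum.inr a) : Fin (2 * n)) : ℕ) < n := by
        change ¬ (2 * n - 1 - (a : ℕ)) < n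
        omega
      rw [if_neg h5]
      rfl
  · rw [if_neg h, if_neg (fun h' => h (h3.1 h'))]

/-- The standard representation of the symplectic group. -/
def RSp (n : ℕ) : Rpn (GSp (2 * n)) (Fin n ⊕ Fin n) := stdR _ (pSp n) (qSp n) (pq_Sp n) (qp_Sp n)

/-- The isomorphism of the Lie algebra of `Sp_{2n}` with the Lie algebra of the datum. -/
def drSp (n : ℕ) : lieAlg (GSp (2 * n)) ≃ₗ[ℂ] H166.lieS (Dat.sp n) :=
  conjE (isForm_GSp _) (isUnit_det_fm (even_two_mul n)) (pq_Sp n) (qp_Sp n) (form_Sp n)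

theorem drSp_val (n : ℕ) (X : lieAlg (GSp (2 * n))) :
    (drSp n X : Matrix (Fin n ⊕ Fin n) (Fin n ⊕ Fin n) ℂ) = (RSp n).drL X := (stdR_drL X).symm

theorem det_RSp (n : ℕ) {A : Type} [CommRing A] [Algebra ℂ A] (x : Gr (GSp (2 * n)) A) :
    ((RSp n).r x).det = 1 := stdR_det x

end Sp

section So

/-- The indices. -/
def eqSo (n : ℕ) : (Fin n ⊕ Fin n) ⊕ Unit ≃ Fin (2 * n + 1) :=
  Fintype.equivFinOfCardEq (by simp; ring)

/-- The change of coordinates which transforms the form of `Dat.so n` into the sum of squares. -/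
def cb (n : ℕ) : Matrix ((Fin n ⊕ Fin n) ⊕ Unit) ((Fin n ⊕ Fin n) ⊕ Unit) ℂ :=
  Matrix.fromBlocks (Matrix.fromBlocks 1 (Complex.I • 1) ((1 / 2 : ℂ) • 1) ((-Complex.I / 2) • 1))
    0 0 1

/-- The inverse change of coordinates. -/
def cb' (n : ℕ) : Matrix ((Fin n ⊕ Fin n) ⊕ Unit) ((Fin n ⊕ Fin n) ⊕ Unit) ℂ :=
  Matrix.fromBlocks (Matrix.fromBlocks ((1 / 2 : ℂ) • 1) 1 ((-Complex.I / 2) • 1) (Complex.I • 1))
    0 0 1

theorem fJ_so (n : ℕ) : fJ (Dat.so n) = Matrix.fromBlocks (Matrix.fromBlocks 0 1 1 0) 0 0 1 := by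
  ext i j
  rcases i with (i | i) | i <;> rcases j with (j | j) | j <;>
    simp [fJ, Dat.so, Matrix.one_apply, eq_comm]

theorem cb_mul (n : ℕ) : cb n * cb' n = 1 := by
  have hI : Complex.I * Complex.I = -1 := Complex.I_mul_I
  have h1 : (1 / 2 : ℂ) + Complex.I * (-Complex.I / 2) = 1 := by
    linear_combination (-1 / 2 : ℂ) * hI
  have h2 : (1 : ℂ) + Complex.I * Complex.I = 0 := by rw [hI]; ring
  have h3 : (1 / 2 : ℂ) * (1 / 2) + -Complex.I / 2 * (-Complex.I / 2) = 0 := by
    linear_combination (1 / 4 : ℂ) * hI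
  have h4 : (1 / 2 : ℂ) + -Complex.I / 2 * Complex.I = 1 := by
    linear_combination (-1 / 2 : ℂ) * hI
  unfold cb cb'
  rw [Matrix.fromBlocks_multiply, Matrix.fromBlocks_multiply]
  simp only [Matrix.mul_smul, smul_smul, Matrix.mul_one,
    Matrix.mul_zero, Matrix.zero_mul, add_zero, zero_add]
  rw [← Matrix.fromBlocks_one, ← Matrix.fromBlocks_one]
  congr 1
  have k1 : (1 : Matrix (Fin n) (Fin n) ℂ) = (1 : ℂ) • 1 := (one_smul ℂ _).symm
  congr 1
  · rw [← add_smul, h4, one_smul]
  · conv_lhs => rw [k1]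
    rw [smul_smul, mul_one, ← add_smul, h2, zero_smul]
  · rw [← add_smul, h3, zero_smul]
  · rw [← add_smul, h1, one_smul]

theorem cb_mul' (n : ℕ) : cb' n * cb n = 1 := mul_eq_one_comm.1 (cb_mul n)

theorem cb_form (n : ℕ) : (cb n).transpose * fJ (Dat.so n) * cb n = 1 := by
  have hI : Complex.I * Complex.I = -1 := Complex.I_mul_I
  have h1 : (1 / 2 : ℂ) + 1 / 2 = 1 := by norm_num
  have h2 : (-Complex.I / 2) + (1 / 2) * Complex.I = 0 := by ring
  rw [fJ_so]
  unfold cb
  rw [Matrix.fromBlocks_transpose, Matrix.fromBlocks_transpose]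
  simp only [Matrix.transpose_smul, Matrix.transpose_one, Matrix.transpose_zero]
  rw [Matrix.fromBlocks_multiply, Matrix.fromBlocks_multiply]
  simp only [Matrix.mul_one, Matrix.mul_zero, Matrix.zero_mul, add_zero, zero_add]
  rw [Matrix.fromBlocks_multiply, Matrix.fromBlocks_multiply]
  simp only [Matrix.mul_smul, smul_smul, Matrix.mul_one, Matrix.mul_zero, add_zero, zero_add]
  rw [← Matrix.fromBlocks_one, ← Matrix.fromBlocks_one]
  congr 1
  congr 1
  · rw [← add_smul, h1, one_smul]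
  · rw [← add_smul, show Complex.I * (1 / 2) + -Complex.I / 2 = 0 by ring, zero_smul]
  · rw [← add_smul, h2, zero_smul]
  · rw [← add_smul, show Complex.I * (-Complex.I / 2) + -Complex.I / 2 * Complex.I = 1 by
      linear_combination (-1 : ℂ) * hI, one_smul]

/-- The change of coordinates. -/
def pSo (n : ℕ) : Matrix ((Fin n ⊕ Fin n) ⊕ Unit) (Fin (2 * n + 1)) ℂ :=
  (cb n).submatrix id (eqSo n).symm

/-- The inverse change of coordinates. -/
def qSo (n : ℕ) : Matrix (Fin (2 * n + 1)) ((Fin n ⊕ Fin n) ⊕ Unit) ℂ :=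
  (cb' n).submatrix (eqSo n).symm id

theorem pq_So (n : ℕ) : pSo n * qSo n = 1 := by
  unfold pSo qSo
  rw [Matrix.submatrix_mul_equiv, cb_mul]
  rfl

theorem qp_So (n : ℕ) : qSo n * pSo n = 1 := by
  unfold pSo qSo
  rw [← Matrix.submatrix_mul (cb' n) (cb n) (eqSo n).symm id
    (eqSo n).symm Function.bijective_id, cb_mul', Matrix.submatrix_one_equiv]

theorem form_So (n : ℕ) : (pSo n).transpose * fJ (Dat.so n) * pSo n = 1 := by
  unfold pSo
  rw [Matrix.transpose_submatrix]
  have h2 : (fJ (Dat.so n)) = (fJ (Dat.so n)).submatrix id id := rfl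
  conv_lhs => rw [h2]
  rw [← Matrix.submatrix_mul (cb n).transpose (fJ (Dat.so n))
    (eqSo n).symm id id Function.bijective_id,
    ← Matrix.submatrix_mul _ (cb n) (eqSo n).symm id
    (eqSo n).symm Function.bijective_id, cb_form, Matrix.submatrix_one_equiv]

/-- The standard representation of the odd special orthogonal group. -/
def RSo (n : ℕ) : Rpn (GSo (2 * n + 1)) ((Fin n ⊕ Fin n) ⊕ Unit) :=
  stdR _ (pSo n) (qSo n) (pq_So n) (qp_So n)

/-- The isomorphism of the Lie algebra of `SO_{2n+1}` with the Lie algebra of the datum. -/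
def drSo (n : ℕ) : lieAlg (GSo (2 * n + 1)) ≃ₗ[ℂ] H166.lieS (Dat.so n) :=
  conjE (isForm_GSo _) (by rw [Matrix.det_one]; exact isUnit_one) (pq_So n) (qp_So n) (form_So n)

theorem drSo_val (n : ℕ) (X : lieAlg (GSo (2 * n + 1))) :
    (drSo n X : Matrix ((Fin n ⊕ Fin n) ⊕ Unit) ((Fin n ⊕ Fin n) ⊕ Unit) ℂ) = (RSo n).drL X :=
  (stdR_drL X).symm

theorem det_RSo (n : ℕ) {A : Type} [CommRing A] [Algebra ℂ A] (x : Gr (GSo (2 * n + 1)) A) :
    ((RSo n).r x).det = 1 := stdR_det x

end So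

end

end Vale.Agent.P286.H295
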