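import Vale.Agent.P286.Gen.Cent

/-!
# The coordinate ring of a connected linear algebraic group is smooth
-/

namespace Vale.Agent.P286.H295

open Matrix Vale.Agent.P286.Gen

noncomputable section

variable {N : ℕ} {A B : Type} [CommRing A] [Algebra ℂ A] [CommRing B] [Algebra ℂ B] {Γ : Gps N}

/-- The homomorphism from the coordinate ring given by a point. -/
def pth (x : Mt N B) (hx : IsPt Γ x) : Of Γ →ₐ[ℂ] B :=
  Ideal.Quotient.liftₐ (vanI Γ) (ev x) hx

/-- The coordinate functions. -/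
def um (Γ : Gps N) : Mt N (Of Γ) := (gen N ℂ).map (Ideal.Quotient.mkₐ ℂ (vanI Γ))

theorem um_apply (i j : Fin N) :
    um Γ i j = Ideal.Quotient.mk (vanI Γ) (MvPolynomial.X (i, j)) := rfl

theorem pth_mk (x : Mt N B) (hx : IsPt Γ x) (P : Pl N) :
    pth x hx (Ideal.Quotient.mk (vanI Γ) P) = ev x P := rfl

theorem um_map_pth (x : Mt N B) (hx : IsPt Γ x) : (um Γ).map (pth x hx) = x := by
  ext i j
  change ev x (MvPolynomial.X (i, j)) = x i j
  exact MvPolynomial.aeval_X _ _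

theorem ev_um (P : Pl N) : ev (um Γ) P = Ideal.Quotient.mk (vanI Γ) P := by
  have h : (ev (um Γ) : Pl N →ₐ[ℂ] Of Γ) = Ideal.Quotient.mkₐ ℂ (vanI Γ) := by
    apply MvPolynomial.algHom_ext
    intro p
    exact MvPolynomial.aeval_X _ _
  rw [h]
  rfl

theorem isPt_um : IsPt Γ (um Γ) := fun P hP => by
  rw [ev_um]
  exact Ideal.Quotient.eq_zero_iff_mem.2 (show P ∈ vanI Γ from hP)

theorem pth_ext {f g : Of Γ →ₐ[ℂ] B} (h : (um Γ).map f = (um Γ).map g) : f = g := by
  apply AlgHom.ext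
  intro a
  obtain ⟨P, rfl⟩ := Ideal.Quotient.mk_surjective a
  rw [← ev_um P, map_ev, map_ev, h]

theorem pth_um_map (f : Of Γ →ₐ[ℂ] B) :
    pth ((um Γ).map f) ((isPt_um (Γ := Γ)).map f) = f :=
  pth_ext (um_map_pth _ _)

theorem map_map_hom (x : Mt N A) {D : Type} [CommRing D] [Algebra ℂ D] (f : A →ₐ[ℂ] B)
    (g : B →ₐ[ℂ] D) : (x.map f).map g = x.map (g.comp f) := by
  ext i j
  rfl

/-- Left translation by a complex point. -/
def ltr (g : Mt N ℂ) (hg : IsPt Γ g) : Of Γ →ₐ[ℂ] Of Γ :=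
  pth (cm (Of Γ) g * um Γ) ((hg.map (Algebra.ofId ℂ (Of Γ))).mul isPt_um)

theorem um_map_ltr (g : Mt N ℂ) (hg : IsPt Γ g) : (um Γ).map (ltr g hg) = cm (Of Γ) g * um Γ :=
  um_map_pth _ _

theorem map_cm (g : Mt N ℂ) (f : A →ₐ[ℂ] B) : (cm A g).map f = cm B g := cm_map f g

theorem mt_map_mul (x y : Mt N A) (f : A →ₐ[ℂ] B) : (x * y).map f = x.map f * y.map f :=
  Matrix.map_mul (f := (f : A →+* B))

theorem cm_mul (x y : Mt N ℂ) : cm A (x * y) = cm A x * cm A y :=
  Matrix.map_mul (f := algebraMap ℂ A)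

theorem cm_one : cm A (1 : Mt N ℂ) = 1 := Matrix.map_one _ (map_zero _) (map_one _)

theorem ltr_comp (g h : Mt N ℂ) (hg : IsPt Γ g) (hh : IsPt Γ h) :
    (ltr g hg).comp (ltr h hh) = ltr (h * g) (hh.mul hg) := by
  apply pth_ext
  rw [← map_map_hom, um_map_ltr, um_map_ltr, mt_map_mul, map_cm, um_map_ltr, cm_mul, mul_assoc]

theorem ltr_one : ltr (1 : Mt N ℂ) (isPt_one (Γ := Γ)) = AlgHom.id ℂ (Of Γ) := by
  apply pth_ext
  rw [um_map_ltr, cm_one, one_mul]
  rfl

theorem adj_mul_pt {g : Mt N A} (hg : IsPt Γ g) : g.adjugate * g = 1 := hg.adj_mul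

theorem mul_adj_pt {g : Mt N A} (hg : IsPt Γ g) : g * g.adjugate = 1 := hg.mul_adj

theorem ltr_congr {g h : Mt N ℂ} (e : g = h) (hg : IsPt Γ g) (hh : IsPt Γ h) :
    ltr g hg = ltr h hh := by
  subst e
  rfl

/-- Left translation as an automorphism. -/
def ltre (g : Mt N ℂ) (hg : IsPt Γ g) : Of Γ ≃ₐ[ℂ] Of Γ :=
  AlgEquiv.ofAlgHom (ltr g hg) (ltr g.adjugate hg.adjugate)
    (by rw [ltr_comp, ← ltr_one]; exact ltr_congr (adj_mul_pt hg) _ _)
    (by rw [ltr_comp, ← ltr_one]; exact ltr_congr (mul_adj_pt hg) _ _)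

/-- The value of a translate. -/
theorem pth_ltr (g x : Mt N ℂ) (hg : IsPt Γ g) (hx : IsPt Γ x) (f : Of Γ) :
    pth x hx (ltr g hg f) = pth (g * x) (hg.mul hx) f := by
  have h : (pth x hx).comp (ltr g hg) = pth (g * x) (hg.mul hx) := by
    apply pth_ext
    rw [← map_map_hom, um_map_ltr, mt_map_mul, map_cm, um_map_pth, um_map_pth]
    congr 1
  exact AlgHom.congr_fun h f

/-- Smoothness of the localizations at an element and at its image under an automorphism. -/
theorem smooth_away_equiv {R S : Type} [CommRing R] [Algebra ℂ R] [CommRing S] [Algebra ℂ S]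
    (e : R ≃ₐ[ℂ] S) (h : R) (hs : Algebra.Smooth ℂ (Localization.Away h)) :
    Algebra.Smooth ℂ (Localization.Away (e h)) := by
  let F : Localization.Away h ≃+* Localization.Away (e h) :=
    IsLocalization.ringEquivOfRingEquiv (M := Submonoid.powers h) (T := Submonoid.powers (e h))
      (Localization.Away h) (Localization.Away (e h)) (e : R ≃+* S)
      (Submonoid.map_powers (e : R ≃* S).toMonoidHom h)
  let F' : Localization.Away h ≃ₐ[ℂ] Localization.Away (e h) :=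
    AlgEquiv.ofRingEquiv (f := F) (fun c => by
      rw [IsScalarTower.algebraMap_apply ℂ R (Localization.Away h)]
      refine (IsLocalization.ringEquivOfRingEquiv_eq _ _).trans ?_
      rw [IsScalarTower.algebraMap_apply ℂ S (Localization.Away (e h))]
      congr 1
      exact e.commutes c)
  exact Algebra.Smooth.of_equiv F'

instance finiteType_Of : Algebra.FiniteType ℂ (Of Γ) :=
  Algebra.FiniteType.of_surjective (Ideal.Quotient.mkₐ ℂ (vanI Γ))
    (Ideal.Quotient.mkₐ_surjective ℂ (vanI Γ))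

instance finitePresentation_Of : Algebra.FinitePresentation ℂ (Of Γ) :=
  Algebra.FinitePresentation.of_finiteType.1 inferInstance

/-- The maximal ideals of the coordinate ring are given by points. -/
theorem exists_pt_of_isMaximal (m : Ideal (Of Γ)) (hm : m.IsMaximal) :
    ∃ (x : Mt N ℂ) (hx : IsPt Γ x), ∀ f, f ∈ m ↔ pth x hx f = 0 := by
  have h1 : (m.comap (Ideal.Quotient.mk (vanI Γ))).IsMaximal :=
    Ideal.comap_isMaximal_of_surjective _ Ideal.Quotient.mk_surjective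
  obtain ⟨y, hy⟩ := MvPolynomial.isMaximal_iff_eq_vanishingIdeal_singleton.1 h1
  have hm' : ∀ P : Pl N, Ideal.Quotient.mk (vanI Γ) P ∈ m ↔ MvPolynomial.eval y P = 0 := by
    intro P
    rw [← Ideal.mem_comap, hy, MvPolynomial.mem_vanishingIdeal_singleton_iff]
    rfl
  have hev : ∀ P : Pl N, ev (Matrix.of fun i j => y (i, j)) P = MvPolynomial.eval y P := by
    intro P
    change MvPolynomial.aeval (fun p : Fin N × Fin N => y (p.1, p.2)) P = _
    rw [MvPolynomial.aeval_eq_eval]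
  have hx : IsPt Γ (Matrix.of fun i j => y (i, j)) := fun P hP => by
    rw [hev, ← hm', Ideal.Quotient.eq_zero_iff_mem.2 (show P ∈ vanI Γ from hP)]
    exact m.zero_mem
  refine ⟨Matrix.of fun i j => y (i, j), hx, fun f => ?_⟩
  obtain ⟨P, rfl⟩ := Ideal.Quotient.mk_surjective f
  rw [pth_mk, hev, hm']

/-- A nonzero function has a nonzero value. -/
theorem exists_pt_ne {f : Of Γ} (hf : f ≠ 0) : ∃ (x : Mt N ℂ) (hx : IsPt Γ x), pth x hx f ≠ 0 := by
  obtain ⟨P, rfl⟩ := Ideal.Quotient.mk_surjective f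
  have h : ¬ ∀ γ ∈ Γ, ev γ.1 P = 0 := fun h => hf (Ideal.Quotient.eq_zero_iff_mem.2 h)
  push Not at h
  obtain ⟨γ, hγ, h1⟩ := h
  have h2 : cm ℂ γ.1 = γ.1 := by ext i j; rfl
  have h3 : IsPt Γ γ.1 := by
    have := isPt_cm (A := ℂ) hγ
    rwa [h2] at this
  exact ⟨γ.1, h3, h1⟩

/-- **The coordinate ring of a connected group is smooth.** -/
theorem smooth_Of (hP : (vanI Γ).IsPrime) : Algebra.Smooth ℂ (Of Γ) := by
  have : IsDomain (Of Γ) := inferInstance
  obtain ⟨h₁, hne, hsm⟩ := exists_smooth_loc (1 : Of Γ) one_ne_zero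
  set h : Of Γ := 1 * h₁ with hh
  obtain ⟨g₀, hg₀, hv⟩ := exists_pt_ne hne
  refine ⟨?_, inferInstance⟩
  rw [← Algebra.smoothLocus_eq_univ_iff, Set.eq_univ_iff_forall]
  -- the maximal ideals
  have hmax : ∀ m : PrimeSpectrum (Of Γ), m.asIdeal.IsMaximal →
      m ∈ Algebra.smoothLocus ℂ (Of Γ) := by
    intro m hm
    obtain ⟨x, hx, hxm⟩ := exists_pt_of_isMaximal m.asIdeal hm
    have hg : IsPt Γ (g₀ * x.adjugate) := hg₀.mul hx.adjugate
    have h1 := smooth_away_equiv (ltre (g₀ * x.adjugate) hg) h hsm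
    have h2 := (Algebra.basicOpen_subset_smoothLocus_iff_smooth
      (R := ℂ) (A := Of Γ) (f := ltre (g₀ * x.adjugate) hg h)).2 h1
    apply h2
    change ltr (g₀ * x.adjugate) hg h ∉ m.asIdeal
    rw [hxm, pth_ltr]
    have e : g₀ * x.adjugate * x = g₀ := by rw [mul_assoc, adj_mul_pt hx, mul_one]
    have e2 : ∀ (y : Mt N ℂ) (hy : IsPt Γ y), y = g₀ → pth y hy h = pth g₀ hg₀ h := by
      rintro y hy rfl
      rfl
    rw [e2 _ _ e]
    exact hv
  intro p
  obtain ⟨m, hm, hpm⟩ := Ideal.exists_le_maximal p.asIdeal p.2.ne_top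
  let m' : PrimeSpectrum (Of Γ) := ⟨m, hm.isPrime⟩
  have hsp : p ⤳ m' := by
    rw [← PrimeSpectrum.le_iff_specializes]
    exact hpm
  exact hsp.mem_open Algebra.isOpen_smoothLocus (hmax m' hm)

end

end Vale.Agent.P286.H295
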