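import Vale.Agent.P286.H295.Trv
import Vale.Agent.P286.Sp.Grp

/-!
# The symplectic group: irreducibility and Lie algebra
-/

namespace Vale.Agent.P286.H295

open Matrix Vale.Agent.P286.Gen Vale.Agent.P286.H987

noncomputable section

variable {N : ℕ}

/-- The symplectic group `Sp_N(ℂ)`. -/
abbrev GSp (N : ℕ) : Gps N := Sp.SPr N ℂ

theorem isForm_GSp (N : ℕ) : IsForm (GSp N) (Sp.fm N ℂ) := fun _ => Iff.rfl

/-- The signs of the form. -/
def sg (j : Fin N) : ℂ := if (j : ℕ) < N / 2 then 1 else -1

theorem sg_ne (j : Fin N) : sg j ≠ 0 := by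
  unfold sg
  split_ifs
  · exact one_ne_zero
  · exact neg_ne_zero.2 one_ne_zero

theorem om_single (j : Fin N) (x : Fin N → ℂ) :
    om (Sp.fm N ℂ) (Pi.single j 1) x = sg j * x j.rev := by
  unfold om
  rw [single_one_dotProduct, Matrix.mulVec, dotProduct, Finset.sum_eq_single j.rev]
  · simp [Sp.fm, sg]
  · intro k _ hk
    simp only [Sp.fm, Matrix.of_apply]
    rw [if_neg hk, zero_mul]
  · intro h
    exact absurd (Finset.mem_univ _) h

/-- The vectors supported on `S`. -/
def Ws (S : Finset (Fin N)) : Submodule ℂ (Fin N → ℂ) where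
  carrier := {x | ∀ j, j ∉ S → x j = 0}
  zero_mem' _ _ := rfl
  add_mem' {x y} hx hy j hj := by rw [Pi.add_apply, hx j hj, hy j hj, add_zero]
  smul_mem' c x hx j hj := by rw [Pi.smul_apply, hx j hj, smul_zero]

theorem single_mem_Ws {S : Finset (Fin N)} {j : Fin N} (hj : j ∈ S) :
    (Pi.single j 1 : Fin N → ℂ) ∈ Ws S := by
  intro i hi
  rw [Pi.single_eq_of_ne]
  rintro rfl
  exact hi hj

theorem single_ne (j : Fin N) : (Pi.single j 1 : Fin N → ℂ) ≠ 0 := by
  intro h
  have := congrFun h j
  simp at this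

theorem joined_GSp_aux (hN : Even N) (k : ℕ) : ∀ S : Finset (Fin N), S.card = k →
    (∀ j, j ∈ S ↔ j.rev ∈ S) → ∀ γ ∈ GSp N,
    (∀ j, j ∉ S → γ.1 *ᵥ (Pi.single j 1) = Pi.single j 1) → Joined (GSp N) γ := by
  have hF : (Sp.fm N ℂ).transpose = - Sp.fm N ℂ := Sp.fm_tr hN
  induction k using Nat.strong_induction_on with
  | _ k ih =>
    intro S hS hrev γ hγ hfix
    rcases S.eq_empty_or_nonempty with rfl | ⟨j, hj⟩
    · have h1 : γ = 1 := by
        apply Subtype.ext
        apply Matrix.ext_of_mulVec_single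
        intro i
        rw [hfix i (Finset.notMem_empty i)]
        exact (Matrix.one_mulVec _).symm
      rw [h1]
      exact Joined.one _
    · -- the pairs
      set F := Sp.fm N ℂ with hFd
      have hom : ∀ x y : Fin N → ℂ, om F (γ.1 *ᵥ x) (γ.1 *ᵥ y) = om F x y := by
        intro x y
        rw [om_mul, (isForm_GSp N γ).1 hγ]
      have hjr : j.rev ∈ S := (hrev j).1 hj
      have hne : j.rev ≠ j := by
        intro h
        obtain ⟨m, hm⟩ := hN
        have h1 := congrArg Fin.val h
        rw [Fin.val_rev] at h1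
        have h2 := j.2
        omega
      -- `γ` preserves `W`
      have hpres : ∀ x ∈ Ws S, γ.1 *ᵥ x ∈ Ws S := by
        intro x hx i hi
        have hi' : i.rev ∉ S := fun h => hi ((hrev i).2 h)
        have h1 := hom (Pi.single i.rev 1) x
        rw [hfix _ hi', om_single, om_single, Fin.rev_rev, hx i hi, mul_zero] at h1
        exact (mul_eq_zero.1 h1).resolve_left (sg_ne _)
      have hnd : ∀ u ∈ Ws S, u ≠ 0 → ∃ x ∈ Ws S, om F u x ≠ 0 := by
        intro u hu hu0
        obtain ⟨i, hi⟩ := Function.ne_iff.1 hu0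
        have hiS : i ∈ S := by
          by_contra h
          exact hi (hu i h)
        refine ⟨Pi.single i.rev 1, single_mem_Ws ((hrev i).1 hiS), ?_⟩
        rw [om_swap hF, om_single, Fin.rev_rev]
        exact neg_ne_zero.2 (mul_ne_zero (sg_ne _) hi)
      have he := single_mem_Ws hj
      have hf := single_mem_Ws hjr
      have hef : om F (Pi.single j 1) (Pi.single j.rev 1) ≠ 0 := by
        rw [om_single, Pi.single_eq_same, mul_one]
        exact sg_ne j
      have hγe : γ.1 *ᵥ (Pi.single j 1) ≠ 0 := by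
        intro h
        have h1 := hom (Pi.single j 1) (Pi.single j.rev 1)
        rw [h] at h1
        apply hef
        rw [← h1]
        exact zero_dotProduct _
      obtain ⟨τ₁, hτ₁, h1⟩ := exists_TP hF hnd he (hpres _ he) (single_ne j) hγe
      have hτ₁Γ := (joined_TP hF (isForm_GSp N) hτ₁).2
      have hom₁ : ∀ x y : Fin N → ℂ, om F (τ₁.1 *ᵥ x) (τ₁.1 *ᵥ y) = om F x y := by
        intro x y
        rw [om_mul, (isForm_GSp N τ₁).1 hτ₁Γ]
      have h2 : om F (γ.1 *ᵥ Pi.single j 1) (τ₁.1 *ᵥ Pi.single j.rev 1) =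
          om F (Pi.single j 1) (Pi.single j.rev 1) := by
        rw [← h1, hom₁]
      obtain ⟨τ₂, hτ₂, h3, h4⟩ := exists_TP_fix hF (hpres _ he) ((TP_pres hF hτ₁).1 _ hf)
        (hpres _ hf) (by rw [h2]; exact hef) (by rw [h2, hom])
      have hτ : τ₂ * τ₁ ∈ TP hF (Ws S) := (TP hF (Ws S)).mul_mem hτ₂ hτ₁
      have hτe : (τ₂ * τ₁).1 *ᵥ (Pi.single j 1) = γ.1 *ᵥ (Pi.single j 1) := mul_mulVec_eq h1 h3
      have hτf : (τ₂ * τ₁).1 *ᵥ (Pi.single j.rev 1) = γ.1 *ᵥ (Pi.single j.rev 1) :=
        mul_mulVec_eq rfl h4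
      set τ := τ₂ * τ₁ with hτd
      obtain ⟨hJ, hτΓ⟩ := joined_TP hF (isForm_GSp N) hτ
      have hδ : τ⁻¹ * γ ∈ GSp N := (GSp N).mul_mem ((GSp N).inv_mem hτΓ) hγ
      have hS' : ((S.erase j).erase j.rev).card < k := by
        have h5 : (S.erase j).card < S.card := Finset.card_erase_lt_of_mem hj
        have h6 := Finset.card_erase_le (s := S.erase j) (a := j.rev)
        omega
      have hδJ : Joined (GSp N) (τ⁻¹ * γ) := by
        refine ih _ hS' _ rfl ?_ _ hδ ?_
        · intro i
          simp only [Finset.mem_erase, ne_eq]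
          rw [hrev i]
          have e1 : i.rev = j.rev ↔ i = j := Fin.rev_inj
          have e2 : i.rev = j ↔ i = j.rev := by
            constructor
            · rintro rfl
              exact (Fin.rev_rev i).symm
            · rintro rfl
              exact Fin.rev_rev j
          rw [e1, e2]
          tauto
        · intro i hi
          by_cases h5 : i = j
          · rw [h5]
            exact mul_mulVec_eq rfl (inv_mulVec_eq hτe)
          · by_cases h6 : i = j.rev
            · rw [h6]
              exact mul_mulVec_eq rfl (inv_mulVec_eq hτf)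
            · have h7 : i ∉ S := by
                intro h
                exact hi (Finset.mem_erase.2 ⟨h6, Finset.mem_erase.2 ⟨h5, h⟩⟩)
              refine mul_mulVec_eq (hfix i h7) (inv_mulVec_eq (TP_fix hF hτ ?_))
              intro w hw
              rw [om_swap hF, om_single, hw i.rev (fun h => h7 ((hrev i).2 h)), mul_zero, neg_zero]
      have h8 : γ = τ * (τ⁻¹ * γ) := by group
      rw [h8]
      exact hJ.mul hδJ

/-- Every symplectic matrix is joined with `1`. -/
theorem joined_GSp (hN : Even N) : ∀ γ ∈ GSp N, Joined (GSp N) γ := fun γ hγ =>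
  joined_GSp_aux hN _ Finset.univ rfl (fun _ => by simp) γ hγ
    (fun j hj => absurd (Finset.mem_univ j) hj)

/-- **The symplectic group is irreducible.** -/
theorem prime_GSp (hN : Even N) : (vanI (GSp N)).IsPrime := prime_of_joined (joined_GSp hN)

end

end Vale.Agent.P286.H295
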