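import Vale.Agent.P286.H987.Unip
import Vale.Agent.P286.H295.PtJ

/-!
# Symplectic groups are generated by transvections
-/

namespace Vale.Agent.P286.H295

open Matrix Vale.Agent.P286.Gen Vale.Agent.P286.H987

noncomputable section

variable {N : ℕ} {Γ : Gps N} {F : Mt N ℂ}

/-- The form. -/
def om (F : Mt N ℂ) (x y : Fin N → ℂ) : ℂ := x ⬝ᵥ (F *ᵥ y)

theorem om_add_left (x x' y : Fin N → ℂ) : om F (x + x') y = om F x y + om F x' y :=
  add_dotProduct _ _ _

theorem om_add_right (x y y' : Fin N → ℂ) : om F x (y + y') = om F x y + om F x y' := by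
  unfold om
  rw [Matrix.mulVec_add, dotProduct_add]

theorem om_smul_left (c : ℂ) (x y : Fin N → ℂ) : om F (c • x) y = c * om F x y :=
  smul_dotProduct _ _ _

theorem om_smul_right (c : ℂ) (x y : Fin N → ℂ) : om F x (c • y) = c * om F x y := by
  unfold om
  rw [Matrix.mulVec_smul, dotProduct_smul, smul_eq_mul]

theorem om_sub_left (x x' y : Fin N → ℂ) : om F (x - x') y = om F x y - om F x' y :=
  sub_dotProduct _ _ _

theorem om_swap (hF : F.transpose = -F) (x y : Fin N → ℂ) : om F x y = - om F y x := by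
  unfold om
  rw [dotProduct_mulVec, ← Matrix.mulVec_transpose, hF, Matrix.neg_mulVec, neg_dotProduct,
    dotProduct_comm]

theorem om_self (hF : F.transpose = -F) (x : Fin N → ℂ) : om F x x = 0 := by
  have h := om_swap hF x x
  linear_combination (1 / 2 : ℂ) * h

theorem om_mul (x y : Fin N → ℂ) (g : Mt N ℂ) :
    om F (g *ᵥ x) (g *ᵥ y) = om (g.transpose * F * g) x y := by
  unfold om
  rw [Matrix.mulVec_mulVec, ← Matrix.vecMul_transpose, ← dotProduct_mulVec,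
    Matrix.mulVec_mulVec, Matrix.mul_assoc]

/-- The nilpotent matrix of a transvection. -/
def yv (F : Mt N ℂ) (w : Fin N → ℂ) : Mt N ℂ := vecMulVec w (w ᵥ* F)

theorem yv_mulVec (w x : Fin N → ℂ) : yv F w *ᵥ x = om F w x • w := by
  unfold yv om
  rw [Matrix.vecMulVec_mulVec, dotProduct_mulVec]
  ext i
  simp [mul_comm]

theorem tv_mulVec (w x : Fin N → ℂ) (s : ℂ) :
    (1 + s • yv F w) *ᵥ x = x + (s * om F w x) • w := by
  rw [Matrix.add_mulVec, Matrix.one_mulVec, Matrix.smul_mulVec, yv_mulVec, smul_smul]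

theorem om_ext {G : Mt N ℂ} (h : ∀ x y, om F x y = om G x y) : F = G := by
  ext i j
  have h1 := h (Pi.single i 1) (Pi.single j 1)
  simpa [om] using h1

theorem tv_form (hF : F.transpose = -F) (w : Fin N → ℂ) (s : ℂ) :
    (1 + s • yv F w).transpose * F * (1 + s • yv F w) = F := by
  apply om_ext
  intro x y
  rw [← om_mul, tv_mulVec, tv_mulVec, om_add_left, om_add_right, om_add_right, om_smul_left,
    om_smul_right, om_smul_left, om_smul_right, om_self hF, om_swap hF x w]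
  ring

theorem tv_det (hF : F.transpose = -F) (w : Fin N → ℂ) (s : ℂ) : (1 + s • yv F w).det = 1 := by
  have h : 1 + s • yv F w = 1 + replicateCol Unit (s • w) * replicateRow Unit (w ᵥ* F) := by
    unfold yv
    rw [← Matrix.smul_vecMulVec, Matrix.vecMulVec_eq Unit]
  rw [h, Matrix.det_one_add_replicateCol_mul_replicateRow]
  have h1 : (w ᵥ* F) ⬝ᵥ (s • w) = s * om F w w := by
    rw [dotProduct_smul, smul_eq_mul, om, dotProduct_mulVec]
  rw [h1, om_self hF, mul_zero, add_zero]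

/-- A transvection. -/
def tv (hF : F.transpose = -F) (w : Fin N → ℂ) (s : ℂ) : SpecialLinearGroup (Fin N) ℂ :=
  ⟨1 + s • yv F w, tv_det hF w s⟩

theorem tv_mem (hF : F.transpose = -F) (hΓ : IsForm Γ F) (w : Fin N → ℂ) (s : ℂ) :
    tv hF w s ∈ Γ := (hΓ _).2 (tv_form hF w s)

theorem joined_tv (hF : F.transpose = -F) (hΓ : IsForm Γ F) (w : Fin N → ℂ) (s : ℂ) :
    Joined Γ (tv hF w s) :=
  joined_of_line (y := yv F w) (s := s) (fun t => ⟨tv hF w t, tv_mem hF hΓ w t, rfl⟩) rfl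

/-- `τ` moves `x` to `y` and is a product of transvections by elements of `W`. -/
def TP (hF : F.transpose = -F) (W : Submodule ℂ (Fin N → ℂ)) :
    Subgroup (SpecialLinearGroup (Fin N) ℂ) :=
  Subgroup.closure {γ | ∃ w ∈ W, ∃ s : ℂ, γ = tv hF w s}

theorem tv_mem_TP (hF : F.transpose = -F) {W : Submodule ℂ (Fin N → ℂ)} {w : Fin N → ℂ}
    (hw : w ∈ W) (s : ℂ) : tv hF w s ∈ TP hF W := Subgroup.subset_closure ⟨w, hw, s, rfl⟩

theorem joined_TP (hF : F.transpose = -F) (hΓ : IsForm Γ F) {W : Submodule ℂ (Fin N → ℂ)}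
    {γ : SpecialLinearGroup (Fin N) ℂ} (h : γ ∈ TP hF W) : Joined Γ γ ∧ γ ∈ Γ := by
  unfold TP at h
  induction h using Subgroup.closure_induction with
  | mem x hx =>
    obtain ⟨w, -, s, rfl⟩ := hx
    exact ⟨joined_tv hF hΓ w s, tv_mem hF hΓ w s⟩
  | one => exact ⟨Joined.one Γ, Γ.one_mem⟩
  | mul x y _ _ hx hy => exact ⟨hx.1.mul hy.1, Γ.mul_mem hx.2 hy.2⟩
  | inv x _ hx => exact ⟨hx.1.inv, Γ.inv_mem hx.2⟩

theorem inv_mulVec_eq {γ : SpecialLinearGroup (Fin N) ℂ} {x y : Fin N → ℂ}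
    (h : γ.1 *ᵥ x = y) : (γ⁻¹).1 *ᵥ y = x := by
  have h1 : (γ⁻¹).1 * γ.1 = 1 := congrArg Subtype.val (inv_mul_cancel γ)
  rw [← h, Matrix.mulVec_mulVec, h1, Matrix.one_mulVec]

theorem mul_mulVec_eq {γ δ : SpecialLinearGroup (Fin N) ℂ} {x y z : Fin N → ℂ}
    (h : γ.1 *ᵥ x = y) (h' : δ.1 *ᵥ y = z) : (δ * γ).1 *ᵥ x = z := by
  have h1 : (δ * γ).1 = δ.1 * γ.1 := rfl
  rw [h1, ← Matrix.mulVec_mulVec, h, h']

/-- The elements of `TP` fix the vectors orthogonal to `W`. -/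
theorem TP_fix (hF : F.transpose = -F) {W : Submodule ℂ (Fin N → ℂ)}
    {γ : SpecialLinearGroup (Fin N) ℂ} (h : γ ∈ TP hF W) {x : Fin N → ℂ}
    (hx : ∀ w ∈ W, om F w x = 0) : γ.1 *ᵥ x = x := by
  unfold TP at h
  induction h using Subgroup.closure_induction with
  | mem γ hγ =>
    obtain ⟨w, hw, s, rfl⟩ := hγ
    change (1 + s • yv F w) *ᵥ x = x
    rw [tv_mulVec, hx w hw, mul_zero, zero_smul, add_zero]
  | one => exact Matrix.one_mulVec x
  | mul γ δ _ _ hγ hδ => exact mul_mulVec_eq hδ hγ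
  | inv γ _ hγ => exact inv_mulVec_eq hγ

/-- One transvection moves `u` to `v` if they are not orthogonal. -/
theorem exists_tv (hF : F.transpose = -F) {u v : Fin N → ℂ} (h : om F u v ≠ 0) :
    ∃ s : ℂ, (tv hF (v - u) s).1 *ᵥ u = v := by
  have h1 : om F v u ≠ 0 := by
    rw [om_swap hF]
    exact neg_ne_zero.2 h
  refine ⟨(om F v u)⁻¹, ?_⟩
  change (1 + (om F v u)⁻¹ • yv F (v - u)) *ᵥ u = v
  rw [tv_mulVec, om_sub_left, om_self hF, sub_zero, inv_mul_cancel₀ h1, one_smul]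
  abel

/-- Transitivity on the nonzero vectors. -/
theorem exists_TP (hF : F.transpose = -F) {W : Submodule ℂ (Fin N → ℂ)}
    (hW : ∀ u ∈ W, u ≠ 0 → ∃ x ∈ W, om F u x ≠ 0) {u v : Fin N → ℂ}
    (hu : u ∈ W) (hv : v ∈ W) (hu0 : u ≠ 0) (hv0 : v ≠ 0) :
    ∃ γ ∈ TP hF W, γ.1 *ᵥ u = v := by
  by_cases h : om F u v ≠ 0
  · obtain ⟨s, hs⟩ := exists_tv hF h
    exact ⟨_, tv_mem_TP hF (W.sub_mem hv hu) s, hs⟩
  · push Not at h
    -- a vector which is orthogonal to none of them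
    obtain ⟨x, hx, hux⟩ := hW u hu hu0
    obtain ⟨y, hy, hvy⟩ := hW v hv hv0
    have key : ∃ z ∈ W, om F u z ≠ 0 ∧ om F z v ≠ 0 := by
      have hs : ∀ z, om F z v = - om F v z := fun z => om_swap hF z v
      simp only [hs, ne_eq, neg_eq_zero]
      by_cases h1 : om F v x = 0
      · by_cases h2 : om F u y = 0
        · refine ⟨x + y, W.add_mem hx hy, ?_, ?_⟩
          · rw [om_add_right, h2, add_zero]
            exact hux
          · rw [om_add_right, h1, zero_add]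
            exact hvy
        · exact ⟨y, hy, h2, hvy⟩
      · exact ⟨x, hx, hux, h1⟩
    obtain ⟨z, hz, h1, h2⟩ := key
    obtain ⟨s, hs⟩ := exists_tv hF h1
    obtain ⟨t, ht⟩ := exists_tv hF h2
    exact ⟨_, (TP hF W).mul_mem (tv_mem_TP hF (W.sub_mem hv hz) t)
      (tv_mem_TP hF (W.sub_mem hz hu) s), mul_mulVec_eq hs ht⟩

/-- Transitivity on the vectors with the same product with `u`. -/
theorem exists_TP_fix (hF : F.transpose = -F) {W : Submodule ℂ (Fin N → ℂ)} {u v v' : Fin N → ℂ}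
    (hu : u ∈ W) (hv : v ∈ W) (hv' : v' ∈ W) (h : om F u v ≠ 0) (h' : om F u v = om F u v') :
    ∃ γ ∈ TP hF W, γ.1 *ᵥ u = u ∧ γ.1 *ᵥ v = v' := by
  -- a transvection by a vector orthogonal to `u`
  have fix : ∀ (w : Fin N → ℂ) (s : ℂ), om F u w = 0 → (tv hF w s).1 *ᵥ u = u := by
    intro w s hw
    change (1 + s • yv F w) *ᵥ u = u
    rw [tv_mulVec, om_swap hF w u, hw, neg_zero, mul_zero, zero_smul, add_zero]
  have sub : ∀ x y : Fin N → ℂ, om F u (x - y) = om F u x - om F u y := by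
    intro x y
    rw [om_swap hF, om_sub_left, om_swap hF u x, om_swap hF u y]
    ring
  by_cases h1 : om F v v' ≠ 0
  · obtain ⟨s, hs⟩ := exists_tv hF h1
    refine ⟨_, tv_mem_TP hF (W.sub_mem hv' hv) s, fix _ s ?_, hs⟩
    rw [sub, h', sub_self]
  · push Not at h1
    have hz : v + u ∈ W := W.add_mem hv hu
    have e1 : om F v (v + u) ≠ 0 := by
      rw [om_add_right, om_self hF, zero_add, om_swap hF]
      exact neg_ne_zero.2 h
    have e2 : om F (v + u) v' ≠ 0 := by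
      rw [om_add_left, h1, zero_add, ← h']
      exact h
    obtain ⟨s, hs⟩ := exists_tv hF e1
    obtain ⟨t, ht⟩ := exists_tv hF e2
    refine ⟨_, (TP hF W).mul_mem (tv_mem_TP hF (W.sub_mem hv' hz) t)
      (tv_mem_TP hF (W.sub_mem hz hv) s), mul_mulVec_eq (fix _ s ?_) (fix _ t ?_),
      mul_mulVec_eq hs ht⟩
    · rw [sub, om_add_right, om_self hF, add_zero, sub_self]
    · rw [sub, om_add_right, om_self hF, add_zero, h', sub_self]

/-- The elements of `TP` preserve `W`. -/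
theorem TP_pres (hF : F.transpose = -F) {W : Submodule ℂ (Fin N → ℂ)}
    {γ : SpecialLinearGroup (Fin N) ℂ} (h : γ ∈ TP hF W) :
    (∀ x ∈ W, γ.1 *ᵥ x ∈ W) ∧ (∀ x ∈ W, (γ⁻¹).1 *ᵥ x ∈ W) := by
  have tvp : ∀ w ∈ W, ∀ s : ℂ, ∀ x ∈ W, (tv hF w s).1 *ᵥ x ∈ W := by
    intro w hw s x hx
    change (1 + s • yv F w) *ᵥ x ∈ W
    rw [tv_mulVec]
    exact W.add_mem hx (W.smul_mem _ hw)
  have tvi : ∀ (w : Fin N → ℂ) (s : ℂ), (tv hF w s)⁻¹ = tv hF w (-s) := by
    intro w s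
    rw [inv_eq_iff_mul_eq_one]
    apply Subtype.ext
    change (1 + s • yv F w) * (1 + (-s) • yv F w) = 1
    have h2 : yv F w * yv F w = 0 := by
      apply Matrix.ext_of_mulVec_single
      intro i
      rw [← Matrix.mulVec_mulVec, yv_mulVec, yv_mulVec, om_smul_right, om_self hF, mul_zero,
        zero_smul, Matrix.zero_mulVec]
    rw [mul_add, mul_one, add_mul, one_mul, smul_mul_assoc, mul_smul_comm, h2]
    simp
  unfold TP at h
  induction h using Subgroup.closure_induction with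
  | mem γ hγ =>
    obtain ⟨w, hw, s, rfl⟩ := hγ
    refine ⟨tvp w hw s, ?_⟩
    rw [tvi]
    exact tvp w hw (-s)
  | one =>
    refine ⟨fun x hx => ?_, fun x hx => ?_⟩
    · change (1 : Mt N ℂ) *ᵥ x ∈ W
      rwa [Matrix.one_mulVec]
    · rw [inv_one]
      change (1 : Mt N ℂ) *ᵥ x ∈ W
      rwa [Matrix.one_mulVec]
  | mul γ δ _ _ hγ hδ =>
    refine ⟨fun x hx => ?_, fun x hx => ?_⟩
    · rw [mul_mulVec_eq rfl rfl]
      exact hγ.1 _ (hδ.1 x hx)
    · rw [_root_.mul_inv_rev, mul_mulVec_eq rfl rfl]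
      exact hδ.2 _ (hγ.2 x hx)
  | inv γ _ hγ =>
    rw [inv_inv]
    exact ⟨hγ.2, hγ.1⟩

end

end Vale.Agent.P286.H295
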